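import Vale.Agent.P062.Transport
import Vale.Agent.P062.Cert.D0
namespace Vale.Agent.P062
def E0 : Tree := dummyE
set_option maxRecDepth 1000000 in
def j0 : List Just := [.copy 2 0 64,.copy 0 0 67,.copy 2 0 65,.copy 0 0 68,.kids 4 (5,0) [(7,1)],.kids 68 (3,0) [(9,0)],.kids 65 (1,0) [(11,1)],.copy 7 0 257,.copy 4 0 192,.copy 4 0 0,.kids 64 (17,64) [(19,0)],.kids 128 (15,128) [(21,0)],.copy 1 0 4,.copy 4 0 193,.copy 6 0 192,.copy 4 0 257,.copy 6 0 256,.kids 193 (31,1) [(33,0)],.kids 256 (29,0) [(35,64)],.kids 258 (27,1) [(37,0)],.kids 3 (25,0) [(39,2)],.copy 7 0 64,.copy 7 0 0,.kids 65 (45,0) [(29,64)],.kids 64 (43,64) [(47,0)],.kids 320 (33,128) [(49,0)],.kids 131 (25,128) [(51,2)],.kids 323 (23,2) [(41,128),(53,0)],.kids 259 (7,192) [(55,0)],.copy 1 0 3,.kids 68 (25,1) [(5,64)],.kids 129 (1,64) [(61,1)],.kids 5 (59,1) [(63,0)],.kids 196 (13,192) [(57,1),(65,128)],.kids 68 (3,0) [(7,1)],.kids 1 (1,0) [(69,1)],.kids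 65 (5,1) [(71,0)],.copy 3 0 1,.copy 3 0 0,.kids 1 (75,1) [(77,0)],.kids 65 (3,65) [(79,0)],.kids 133 (7,66) [(81,0)],.copy 5 0 256,.copy 6 0 1,.copy 6 0 193,.kids 65 (87,0) [(89,64)],.kids 129 (85,128) [(91,0)],.kids 1 (77,0) [(39,0)],.copy 5 0 1,.copy 5 0 65,.kids 65 (97,0) [(99,64)],.kids 64 (27,64) [(101,0)],.kids 321 (31,128) [(103,0)],.kids 129 (77,128) [(105,1)],.kids 321 (93,1) [(95,128),(107,0)],.kids 257 (1,192) [(109,0)],.kids 194 (73,192) [(83,128),(111,1)],.kids 4 (25,1) [(59,0)],.kids 65 (77,0) [(115,1)],.kids 1 (75,1) [(117,0)],.kids 67 (7,64) [(25,0)],.kids 4 (59,0) [(121,1)],.kids 132 (3,64) [(123,0)],.kids 69 (83,0) [(119,0),(125,2)],.kids 65 (5,1) [(1,0)],.kids 65 (77,0) [(129,64)],.kids 1 (75,1) [(131,0)],.kids 69 (133,0) [(119,0),(65,1)],.kids 195 (67,2) [(113,0),(127,129),(135,129)],.kids 197 (67,2) [(113,0),(127,129),(135,129)],.kids 65 (1,64) [(115,1)],.kids 129 (5,65) [(141,0)],.kids 69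 (73,64) [(143,0),(125,2)],.kids 68 (7,65) [(75,0)],.kids 1 (77,0) [(147,1)],.kids 133 (3,65) [(149,0)],.kids 68 (25,1) [(75,0)],.kids 1 (77,0) [(153,1)],.kids 5 (59,1) [(155,0)],.kids 196 (151,128) [(157,128),(57,1)],.kids 194 (143,128) [(111,1),(119,128)],.kids 69 (73,64) [(133,0),(151,1)],.kids 195 (145,129) [(159,2),(161,0),(163,129)],.kids 197 (145,129) [(159,2),(161,0),(163,129)],.kids 64 (59,0) [(69,64)],.kids 4 (25,1) [(169,0)],.kids 69 (171,1) [(143,0),(13,65)],.kids 193 (57,1) [(111,0)],.kids 196 (173,128) [(175,0),(159,1),(163,128),(135,128)],.kids 66 (171,1) [(143,0),(13,65)],.kids 196 (57,1) [(111,0)],.kids 66 (83,0) [(171,1),(157,1)],.kids 195 (179,128) [(181,2),(113,0),(161,0),(183,128)],.kids 194 (133,128) [(57,2)],.kids 66 (133,0) [(119,0),(65,1)],.kids 66 (133,0) [(83,0),(13,65)],.kids 66 (83,0) [(119,0),(125,2)],.kids 195 (67,2) [(187,0),(189,128),(191,128),(193,128)],.kids 196 (13,192) [(151,128),(111,0)],.kids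 69 (83,0) [(125,2),(157,1)],.kids 69 (73,64) [(125,2),(65,1)],.kids 69 (133,0) [(65,1),(157,1)],.kids 197 (113,0) [(197,2),(199,129),(201,129),(203,129)],.kids 66 (73,64) [(143,0),(125,2)],.kids 66 (73,64) [(133,0),(151,1)],.kids 66 (133,0) [(143,0),(157,1)],.kids 195 (207,128) [(159,2),(187,0),(209,128),(211,128)],.kids 69 (143,0) [(13,65),(125,2)],.kids 69 (125,2) [(151,1),(119,0)],.kids 197 (215,129) [(161,0),(197,2),(217,129)],.kids 194 (73,192) [(143,128),(57,2)],.kids 68 (75,0) [(5,64)],.kids 129 (1,64) [(223,1)],.kids 1 (77,0) [(225,0)],.kids 69 (227,1) [(157,1),(143,0)],.kids 197 (173,129) [(221,0),(159,2),(197,2),(229,129)],.kids 66 (119,0) [(171,1),(151,1)],.kids 195 (179,128) [(197,2),(113,0),(161,0),(233,128)],.kids 194 (83,128) [(119,128),(57,2)],.kids 69 (65,1) [(227,1),(119,0)],.kids 197 (237,0) [(159,2),(197,2),(67,2),(239,129)],.kids 66 (73,64) [(171,1),(65,1)],.kids 196 (65,128) [(157,128),(111,0)],.kids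 195 (243,128) [(245,2),(161,0),(113,0),(183,128)],.kids 64 (43,64) [(45,0)],.kids 65 (27,65) [(249,0)],.kids 257 (27,0) [(31,64)],.kids 256 (97,0) [(253,0)],.kids 193 (33,0) [(255,1)],.kids 256 (29,0) [(257,64)],.kids 257 (99,1) [(259,64)],.kids 66 (97,1) [(261,64)],.kids 65 (97,1) [(45,0)],.kids 66 (99,65) [(265,0)],.kids 64 (43,64) [(267,0)],.kids 129 (251,0) [(263,64),(269,0)],.copy 0 0 0,.kids 1 (273,0) [(7,1)],.kids 68 (85,3) [(275,0)],.kids 68 (97,3) [(277,64)],.kids 67 (45,2) [(279,0)],.kids 192 (15,128) [(21,0)],.kids 257 (43,0) [(97,1)],.kids 68 (1,64) [(75,0)],.copy 3 0 65,.copy 0 0 3,.kids 3 (291,1) [(273,0)],.kids 1 (289,1) [(293,0)],.copy 2 0 4,.kids 65 (297,1) [(1,0)],.kids 65 (77,0) [(299,64)],.kids 69 (287,2) [(295,0),(301,1)],.copy 3 0 68,.kids 1 (291,1) [(273,0)],.kids 2 (305,2) [(307,0)],.kids 67 (15,3) [(309,0)],.copy 5 0 64,.kids 65 (313,64) [(87,0)],.kids 129 (85,128) [(315,0)],.kids 197 (285,131)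 [(303,129),(311,128),(317,4)],.copy 7 0 65,.kids 192 (17,64) [(19,0)],.kids 64 (321,64) [(323,0)],.kids 131 (281,65) [(283,3),(319,0),(325,3)],.kids 68 (97,3) [(275,64)],.kids 66 (45,2) [(329,0)],.kids 1 (289,1) [(273,0)],.kids 69 (305,2) [(333,0)],.kids 66 (45,2) [(335,64)],.kids 4 (297,1) [(1,0)],.kids 67 (97,2) [(339,64)],.kids 194 (31,66) [(341,0)],.kids 66 (97,1) [(343,0)],.kids 132 (331,0) [(337,0),(345,2)],.kids 68 (77,0) [(125,1)],.kids 261 (347,0) [(349,194)],.kids 131 (251,2) [(351,64),(269,2),(103,3)],.kids 257 (33,64) [(99,1)],.kids 66 (97,1) [(355,64)],.kids 320 (29,64) [(357,0)],.kids 257 (43,0) [(33,64)],.kids 256 (29,0) [(361,0)],.kids 64 (45,0) [(363,64)],.kids 68 (291,0) [(305,1)],.kids 2 (273,0) [(367,1)],.copy 1 0 66,.copy 2 0 1,.kids 64 (371,0) [(373,0)],.kids 66 (45,2) [(375,64)],.kids 68 (97,3) [(377,0)],.kids 68 (7,1) [(273,0)],.kids 1 (1,0) [(381,0)],.kids 68 (97,3) [(383,64)],.kids 66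 (45,2) [(385,0)],.kids 65 (297,0) [(367,64)],.kids 65 (45,1) [(389,64)],.kids 67 (97,2) [(391,0)],.kids 129 (369,128) [(379,0),(387,0),(393,1)],.kids 259 (359,2) [(365,2),(395,0)],.kids 129 (45,64) [(103,1)],.kids 128 (43,128) [(399,0)],.kids 385 (365,128) [(259,192),(401,0)],.kids 65 (85,64) [(97,0)],.kids 257 (33,64) [(405,1)],.kids 256 (29,0) [(407,0)],.kids 129 (27,129) [(269,0)],.kids 65 (97,1) [(33,64)],.kids 66 (99,65) [(413,0)],.kids 256 (45,192) [(415,0)],.kids 129 (27,129) [(417,0)],.kids 193 (249,128) [(411,0),(419,0)],.kids 449 (365,192) [(409,256),(421,0)],.kids 1 (273,0) [(367,1)],.kids 4 (297,1) [(373,0)],.kids 65 (273,64) [(427,1)],.kids 196 (429,192) [(317,3)],.kids 257 (45,0) [(33,64)],.kids 256 (29,0) [(433,0)],.kids 129 (27,129) [(49,0)],.kids 193 (97,129) [(437,0)],.kids 194 (99,193) [(439,0)],.kids 449 (435,256) [(441,0),(359,192)],.kids 322 (425,320) [(431,64),(443,2)],.kids 260 (271,67)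 [(327,64),(353,65),(397,193),(403,67),(423,3),(445,1)],.kids 257 (17,0) [(15,64)],.kids 257 (19,0) [(449,64)],.kids 257 (31,65) [(43,0)],.kids 64 (45,0) [(453,64)],.kids 322 (27,65) [(455,0)],.copy 1 0 64,.kids 4 (459,0) [(297,1)],.kids 195 (31,2) [(461,128)],.kids 193 (33,1) [(463,0)],.kids 258 (365,1) [(457,1),(465,64)],.kids 129 (31,129) [(269,0)],.kids 196 (451,132) [(467,130),(327,0),(469,3)],.kids 67 (297,64) [(25,0)],.kids 4 (59,0) [(473,1)],.kids 68 (75,0) [(475,1)],.kids 1 (77,0) [(477,1)],.kids 65 (273,64) [(479,0)],.kids 3 (297,0) [(7,0)],.kids 68 (3,0) [(483,1)],.kids 65 (87,0) [(33,64)],.kids 131 (25,128) [(487,2)],.kids 259 (7,192) [(489,0)],.kids 195 (485,192) [(475,128),(491,0)],.kids 194 (275,192) [(481,128),(493,2)],.copy 1 0 67,.kids 65 (459,0) [(497,1)],.kids 5 (297,2) [(499,0)],.kids 193 (15,0) [(31,1)],.kids 258 (27,1) [(503,64)],.kids 257 (97,1) [(505,64)],.kids 68 (501,64) [(507,2)],.kids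 131 (487,2) [(509,64)],.kids 256 (97,0) [(85,64)],.kids 321 (15,128) [(101,1)],.kids 65 (87,0) [(515,0)],.copy 4 0 64,.kids 259 (519,2) [(7,192)],.kids 131 (1,128) [(521,1)],.kids 132 (25,129) [(523,0)],.kids 196 (305,129) [(525,0)],.kids 195 (31,2) [(527,0)],.kids 67 (97,2) [(529,64)],.kids 66 (87,1) [(531,0)],.kids 196 (31,3) [(425,128)],.kids 195 (15,2) [(535,0)],.kids 259 (517,2) [(533,1),(537,128)],.copy 4 0 128,.copy 7 0 129,.kids 257 (541,0) [(543,0)],.kids 67 (297,64) [(545,2)],.kids 195 (305,128) [(547,0)],.kids 194 (31,1) [(549,0)],.kids 193 (85,1) [(551,0)],.kids 68 (305,1) [(289,0)],.kids 195 (31,2) [(555,128)],.kids 129 (459,64) [(557,1)],.kids 195 (85,3) [(559,0)],.kids 130 (501,64) [(553,2),(561,0)],.kids 259 (513,67) [(539,1),(563,128)],.kids 193 (33,1) [(461,128)],.kids 194 (45,1) [(567,64)],.kids 258 (33,66) [(569,0)],.kids 259 (15,66) [(571,0)],.kids 66 (275,64) [(573,1)],.kids 65 (97,1) [(87,0)],.kids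 66 (99,65) [(577,0)],.kids 129 (27,129) [(579,0)],.kids 386 (31,193) [(581,0)],.kids 385 (15,192) [(583,0)],.kids 65 (85,64) [(87,0)],.kids 68 (305,1) [(273,0)],.kids 65 (45,1) [(589,64)],.kids 258 (85,66) [(591,0)],.kids 67 (459,64) [(77,0)],.kids 68 (25,65) [(595,0)],.kids 132 (305,65) [(597,0)],.kids 195 (31,2) [(599,64)],.kids 66 (87,1) [(601,64)],.kids 258 (587,2) [(593,64),(603,1)],.copy 5 0 192,.kids 129 (607,128) [(579,0)],.kids 384 (33,192) [(609,0)],.kids 385 (15,192) [(611,0)],.kids 324 (575,128) [(585,3),(605,65),(613,3)],.kids 257 (45,0) [(15,64)],.kids 195 (7,128) [(617,2)],.kids 131 (1,128) [(619,1)],.kids 132 (7,65) [(621,0)],.kids 68 (297,65) [(623,0)],.kids 257 (587,1) [(625,64)],.kids 65 (273,64) [(79,0)],.kids 66 (59,2) [(629,0)],.kids 6 (25,3) [(631,0)],.kids 70 (297,67) [(633,0)],.kids 257 (1,192) [(587,1)],.kids 196 (305,129) [(637,0)],.kids 65 (33,0) [(15,1)],.kids 65 (45,1) [(641,64)],.kids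 66 (87,1) [(643,0)],.kids 131 (25,128) [(645,1)],.kids 193 (273,192) [(647,1)],.kids 260 (275,192) [(639,65),(649,0)],.kids 66 (3,66) [(629,0)],.kids 134 (7,67) [(653,0)],.kids 70 (297,67) [(655,0)],.kids 197 (627,66) [(635,128),(651,1),(657,128)],.kids 65 (19,1) [(85,64)],.kids 129 (305,128) [(661,0)],.kids 257 (1,192) [(663,1)],.kids 129 (77,128) [(665,0)],.kids 193 (273,192) [(667,0)],.copy 3 0 67,.kids 193 (87,1) [(45,0)],.kids 257 (33,65) [(673,0)],.kids 258 (15,65) [(675,0)],.kids 2 (297,0) [(7,0)],.kids 67 (87,2) [(679,64)],.kids 195 (305,128) [(681,0)],.kids 194 (19,1) [(683,0)],.kids 258 (31,65) [(685,0)],.kids 257 (15,64) [(687,0)],.kids 67 (305,0) [(25,0)],.kids 194 (31,1) [(691,128)],.kids 65 (87,0) [(693,64)],.kids 257 (45,0) [(85,65)],.kids 257 (695,1) [(697,64)],.copy 7 0 193,.kids 68 (77,0) [(483,66)],.kids 1 (701,1) [(703,0)],.kids 258 (33,66) [(705,0)],.kids 259 (15,66) [(707,0)],.kids 259 (677,65)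 [(689,66),(699,1),(709,64)],.kids 197 (671,129) [(711,0)],.kids 194 (275,192) [(669,0),(713,65)],.kids 196 (495,0) [(511,1),(565,64),(615,0),(659,0),(715,0)],.kids 257 (321,0) [(15,64)],.kids 257 (19,0) [(719,64)],.kids 256 (85,64) [(89,0)],.kids 256 (87,0) [(723,64)],.kids 1 (7,1) [(299,0)],.kids 64 (321,64) [(19,0)],.kids 128 (15,128) [(729,0)],.kids 195 (727,192) [(731,3)],.kids 66 (45,2) [(1,64)],.kids 68 (97,3) [(735,0)],.kids 259 (737,0) [(39,66)],.kids 129 (33,128) [(269,0)],.kids 260 (725,131) [(733,0),(739,129),(741,3)],.kids 65 (273,64) [(25,1)],.kids 68 (77,0) [(297,65)],.kids 67 (745,0) [(747,1)],.kids 132 (725,3) [(749,64)],.kids 65 (373,1) [(273,64)],.kids 66 (297,2) [(753,0)],.kids 65 (31,65) [(87,0)],.kids 257 (15,64) [(97,1)],.kids 193 (757,0) [(759,64)],.kids 132 (755,128) [(761,3)],.copy 2 0 2,.kids 259 (371,192) [(93,3)],.kids 196 (765,192) [(767,0)],.kids 4 (297,2) [(753,0)],.kids 258 (307,256)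 [(769,2),(771,192)],.kids 257 (15,64) [(89,1)],.kids 130 (87,1) [(775,64)],.copy 6 0 129,.copy 5 0 128,.kids 4 (459,0) [(427,1)],.kids 66 (781,2) [(783,0)],.kids 3 (779,2) [(785,0)],.kids 258 (777,1) [(787,0),(719,65)],.kids 131 (87,2) [(25,64)],.kids 258 (15,65) [(791,0)],.kids 129 (273,128) [(793,1)],.kids 1 (779,0) [(313,0)],.kids 257 (15,64) [(797,1)],.kids 4 (765,0) [(497,0)],.kids 65 (273,64) [(801,1)],.kids 66 (97,2) [(297,64)],.kids 258 (15,65) [(805,0)],.kids 129 (273,128) [(807,1)],.kids 131 (795,0) [(799,2),(803,64),(809,0)],.kids 197 (743,1) [(751,129),(763,64),(773,0),(789,130),(811,129)],.kids 132 (3,64) [(147,0)],.kids 64 (19,0) [(15,64)],.kids 259 (7,192) [(817,2)],.kids 131 (25,128) [(819,0)],.kids 64 (19,0) [(449,64)],.kids 259 (7,192) [(823,2)],.kids 194 (77,128) [(489,1)],.kids 196 (25,193) [(827,0)],.kids 195 (821,65) [(825,65),(829,0)],.kids 4 (59,0) [(153,0)],.kids 260 (815,193) [(831,0),(833,193),(125,193)],.kids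 325 (309,256) [(813,0),(835,66),(349,258)],.kids 195 (721,131) [(469,2),(837,0),(353,0)],.kids 65 (45,0) [(87,0)],.kids 64 (519,64) [(841,0)],.kids 65 (19,1) [(339,64)],.kids 67 (97,2) [(845,0)],.kids 130 (843,1) [(579,1),(847,64)],.kids 322 (585,1) [(849,0),(817,65)],.kids 64 (19,0) [(31,64)],.kids 66 (15,2) [(335,64)],.kids 66 (45,2) [(855,64)],.kids 67 (19,3) [(857,0)],.kids 192 (85,0) [(31,0)],.kids 257 (27,0) [(861,64)],.kids 259 (863,67) [(337,0)],.kids 131 (853,3) [(859,0),(865,64)],.kids 65 (19,1) [(249,0)],.kids 129 (29,128) [(869,0)],.kids 384 (33,192) [(871,0)],.kids 385 (85,193) [(873,0)],.kids 64 (19,0) [(97,0)],.kids 65 (99,64) [(877,0)],.kids 131 (879,3) [(869,2),(331,64)],.kids 323 (513,131) [(875,2),(881,0)],.kids 196 (851,2) [(511,1),(867,0),(883,0)],.kids 321 (269,0) [(365,64),(359,64)],.kids 257 (43,0) [(99,1)],.kids 66 (97,1) [(889,64)],.kids 64 (45,0) [(891,0)],.kids 194 (33,2) [(501,128)],.kids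 259 (893,2) [(895,64)],.kids 129 (31,129) [(251,0)],.kids 128 (31,128) [(103,0)],.kids 195 (887,66) [(897,128),(469,2),(899,2),(901,3)],.kids 257 (17,0) [(321,0)],.kids 257 (19,0) [(905,64)],.kids 194 (907,130) [(467,128),(403,1),(469,1)],.kids 64 (19,0) [(719,64)],.kids 129 (305,128) [(911,1)],.kids 129 (77,128) [(913,1)],.kids 193 (273,192) [(915,0)],.kids 133 (671,65) [(703,0)],.kids 129 (911,1) [(919,128)],.kids 194 (275,192) [(917,0),(921,1)],.kids 193 (85,1) [(33,0)],.kids 256 (29,0) [(925,64)],.kids 257 (43,0) [(927,64)],.kids 64 (45,0) [(929,64)],.kids 65 (19,1) [(931,0)],.kids 194 (863,2) [(927,1),(465,0)],.kids 130 (853,2) [(933,1),(935,128)],.kids 68 (97,3) [(501,64)],.kids 66 (19,2) [(567,64)],.kids 258 (85,66) [(941,0)],.kids 67 (939,0) [(943,0)],.kids 321 (15,128) [(105,1)],.kids 259 (817,2) [(945,0),(947,2)],.kids 196 (495,0) [(867,0),(923,0),(937,1),(949,65)],.kids 256 (99,0) [(31,64)],.kids 257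 (27,0) [(953,0)],.kids 65 (97,0) [(955,64)],.kids 258 (359,1) [(465,64),(957,2)],.kids 194 (721,130) [(271,1),(959,128),(469,1)],.kids 65 (29,64) [(101,1)],.kids 320 (33,128) [(963,0)],.kids 321 (405,65) [(39,128),(965,0)],.kids 67 (87,2) [(939,0)],.kids 131 (537,128) [(969,0)],.kids 259 (853,2) [(971,0),(941,0)],.kids 194 (501,128) [(725,2)],.kids 256 (29,0) [(355,0)],.kids 193 (31,1) [(977,0)],.kids 258 (27,1) [(979,64)],.kids 259 (981,66) [(331,0)],.kids 259 (967,2) [(973,1),(975,64),(983,64)],.kids 324 (447,0) [(471,64),(717,129),(839,65),(885,129),(903,65),(909,66),(951,129),(961,66),(985,193)],.kids 193 (31,1) [(435,0)],.kids 258 (27,1) [(989,64)],.kids 257 (43,0) [(991,64)],.kids 64 (45,0) [(993,64)],.kids 129 (963,0) [(995,64),(269,0)],.kids 193 (85,128) [(91,0)],.kids 65 (15,1) [(339,0)],.kids 65 (45,1) [(1001,64)],.kids 66 (97,2) [(1003,0)],.kids 257 (45,0) [(99,1)],.kids 64 (7,64) [(59,0)],.kids 2 (297,1)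 [(373,0)],.kids 4 (497,0) [(1011,0)],.kids 68 (25,1) [(381,64)],.kids 65 (1009,0) [(1013,1),(1015,0)],.kids 67 (85,2) [(783,0)],.kids 194 (1007,130) [(1017,128),(1019,129),(731,2)],.kids 193 (87,0) [(89,64)]]
theorem chk0 : checkFrom E0 t0 j0 0 = true := by decide +kernel
end Vale.Agent.P062
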