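import Vale.Agent.P062.Transport
import Vale.Agent.P062.Cert.D0
import Vale.Agent.P062.Cert.D1
namespace Vale.Agent.P062
def E1 : Tree := t0
set_option maxRecDepth 1000000 in
def j1 : List Just := [.kids 65 (312,64) [(1022,0)],.kids 132 (998,3) [(1004,65),(1020,0),(1,3)],.kids 65 (458,0) [(296,1)],.kids 68 (96,3) [(5,64)],.kids 66 (44,2) [(7,0)],.kids 66 (44,2) [(274,64)],.kids 195 (32,66) [(11,0)],.kids 67 (44,3) [(13,0)],.kids 131 (9,1) [(938,1),(15,0)],.kids 66 (24,2) [(132,0)],.kids 259 (17,1) [(19,192)],.kids 133 (268,4) [(21,64),(962,4),(48,4)],.kids 68 (96,3) [(380,64)],.kids 68 (296,65) [(288,0)],.kids 68 (272,0) [(27,1)],.kids 193 (296,128) [(18,0)],.kids 193 (0,128) [(31,1)],.kids 65 (76,64) [(33,0)],.kids 132 (96,67) [(35,0)],.kids 129 (25,64) [(29,128),(37,0)],.kids 130 (44,66) [(39,0)],.kids 323 (956,67) [(456,66),(41,0)],.kids 129 (96,65) [(48,0)],.kids 130 (98,129) [(45,0)],.kids 385 (956,129) [(990,192),(47,0)],.kids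 64 (14,64) [(44,0)],.kids 257 (30,65) [(51,0)],.kids 258 (26,1) [(53,0)],.kids 129 (28,128) [(268,0)],.kids 65 (44,0) [(30,65)],.kids 64 (42,64) [(59,0)],.kids 258 (96,193) [(61,0)],.kids 129 (28,128) [(63,0)],.kids 193 (100,129) [(57,0),(65,0)],.kids 449 (956,193) [(55,256),(67,0)],.kids 65 (372,1) [(458,0)],.kids 5 (296,2) [(71,0)],.kids 69 (296,66) [(306,0)],.kids 194 (75,192) [(730,2)],.kids 129 (28,128) [(102,1)],.kids 193 (44,128) [(79,0)],.kids 192 (42,192) [(81,0)],.kids 449 (254,257) [(83,0),(456,192)],.kids 324 (73,320) [(77,64),(85,2)],.kids 261 (996,68) [(3,66),(23,64),(43,130),(49,68),(69,4),(87,2)],.kids 1 (304,1) [(272,0)],.kids 196 (30,3) [(91,128)],.kids 194 (32,2) [(93,0)],.kids 259 (956,3) [(358,2),(95,64)],.kids 195 (724,130) [(97,128),(3,0),(740,2)],.kids 1 (272,0) [(0,0)],.kids 65 (4,1) [(101,0)],.kids 129 (76,128) [(852,1)],.kids 257 (0,192) [(105,0)],.kids 194 (103,192) [(628,128),(107,1)],.kids 197 (634,128)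 [(109,0),(5,193)],.kids 321 (84,129) [(248,0)],.kids 65 (18,1) [(113,0)],.copy 6 0 65,.kids 129 (304,128) [(117,0)],.kids 257 (0,192) [(119,1)],.kids 129 (76,128) [(121,0)],.kids 66 (44,2) [(123,64)],.kids 257 (458,192) [(125,0)],.kids 258 (32,66) [(127,0)],.kids 67 (18,3) [(129,0)],.kids 194 (32,2) [(73,128)],.kids 195 (84,3) [(133,0)],.kids 259 (115,2) [(131,0),(135,128)],.copy 0 0 1,.kids 65 (139,65) [(101,0)],.kids 66 (44,2) [(141,64)],.kids 197 (296,194) [(143,0)],.kids 258 (32,66) [(145,0)],.kids 259 (84,67) [(147,0)],.kids 68 (304,1) [(76,0)],.kids 195 (30,2) [(151,128)],.kids 194 (30,1) [(153,0)],.kids 193 (84,1) [(155,0)],.kids 195 (536,65) [(149,0),(157,66)],.kids 260 (816,3) [(137,0),(159,64)],.kids 194 (96,2) [(153,64)],.kids 258 (30,65) [(163,0)],.kids 257 (84,65) [(165,0)],.kids 67 (338,64) [(167,0)],.kids 259 (14,66) [(7,0)],.kids 65 (24,0) [(304,64)],.kids 65 (76,64) [(173,1)],.kids 129 (458,64) [(175,0)],.kids 194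 (32,2) [(177,64)],.kids 67 (18,3) [(179,64)],.kids 260 (852,3) [(171,65),(181,0)],.kids 129 (26,129) [(868,0)],.kids 386 (30,193) [(185,0)],.kids 385 (84,193) [(187,0)],.kids 323 (169,130) [(874,2),(183,64),(189,2)],.kids 193 (0,128) [(512,1)],.kids 130 (6,129) [(193,0)],.kids 129 (0,64) [(195,0)],.kids 65 (272,64) [(197,0)],.kids 260 (816,3) [(199,64)],.kids 193 (458,128) [(818,1)],.kids 65 (30,1) [(32,0)],.kids 65 (96,0) [(205,64)],.kids 64 (18,0) [(207,0)],.kids 129 (76,128) [(209,1)],.kids 196 (296,193) [(211,0)],.kids 258 (338,193) [(203,64),(213,1)],.kids 68 (4,64) [(474,1)],.kids 129 (0,64) [(217,1)],.kids 65 (272,64) [(219,0)],.kids 194 (201,64) [(480,128),(215,0),(221,128)],.kids 131 (458,128) [(816,3)],.kids 132 (24,129) [(225,0)],.kids 260 (6,193) [(227,0)],.kids 196 (296,193) [(229,0)],.copy 1 0 65,.kids 193 (18,0) [(96,1)],.kids 257 (30,64) [(235,0)],.kids 256 (84,64) [(237,0)],.kids 2 (0,0) [(272,0)],.kids 65 (18,1)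 [(241,64)],.kids 193 (458,128) [(243,0)],.kids 194 (86,2) [(245,0)],.kids 258 (32,66) [(247,0)],.kids 259 (84,67) [(249,0)],.kids 65 (76,0) [(458,0)],.kids 194 (32,2) [(253,128)],.kids 67 (18,3) [(255,64)],.kids 260 (257,0) [(758,67)],.kids 66 (24,2) [(101,64)],.kids 5 (606,4) [(261,0)],.kids 260 (30,67) [(263,0)],.kids 259 (84,67) [(265,0)],.kids 259 (239,67) [(251,64),(259,0),(267,64)],.kids 193 (233,129) [(269,0)],.kids 197 (338,194) [(231,2),(271,64)],.kids 195 (111,0) [(866,0),(161,64),(191,0),(223,0),(273,0)],.kids 256 (84,64) [(312,0)],.kids 256 (86,0) [(277,64)],.kids 257 (84,65) [(16,0)],.kids 257 (18,0) [(281,64)],.kids 4 (0,0) [(6,1)],.kids 68 (272,0) [(285,0)],.kids 65 (312,64) [(18,1)],.kids 129 (84,128) [(289,0)],.kids 194 (287,192) [(291,1)],.kids 64 (44,0) [(6,64)],.kids 66 (96,1) [(295,0)],.kids 257 (297,0) [(38,64)],.kids 257 (283,129) [(293,0),(299,128),(468,0)],.kids 130 (283,2) [(748,64)],.kids 65 (18,1) [(32,64)],.kids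 193 (305,0) [(696,64)],.kids 68 (296,65) [(290,0)],.kids 68 (272,0) [(309,1)],.kids 130 (307,1) [(311,128)],.copy 0 0 2,.copy 3 0 66,.kids 257 (317,192) [(22,0)],.kids 192 (315,192) [(319,0)],.kids 2 (272,0) [(309,1)],.kids 260 (426,257) [(321,0),(323,192)],.kids 128 (18,0) [(281,64)],.kids 68 (542,3) [(308,0)],.kids 3 (540,3) [(329,0)],.kids 260 (327,3) [(331,0),(277,68)],.kids 129 (18,1) [(76,64)],.kids 258 (84,66) [(335,0)],.kids 132 (296,129) [(337,0)],.kids 0 (540,0) [(320,0)],.kids 257 (84,65) [(341,0)],.kids 0 (315,0) [(288,0)],.kids 68 (296,65) [(345,0)],.kids 66 (272,64) [(696,1)],.kids 132 (296,129) [(349,0)],.kids 130 (339,0) [(343,1),(347,64),(351,0)],.kids 195 (301,2) [(303,129),(313,66),(325,2),(333,128),(353,130)],.kids 65 (58,1) [(128,64)],.kids 129 (76,128) [(636,0)],.kids 320 (84,128) [(90,0)],.kids 257 (0,192) [(361,1)],.kids 257 (18,0) [(14,64)],.kids 65 (76,64) [(365,1)],.kids 131 (24,65) [(367,0)],.kids 129 (76,128)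 [(369,0)],.kids 130 (359,0) [(363,0),(371,0)],.kids 65 (58,1) [(78,0)],.kids 194 (357,128) [(373,1),(375,128),(132,128)],.kids 323 (782,258) [(355,0),(377,128),(19,256)],.kids 197 (279,132) [(740,4),(379,0),(23,0)],.kids 259 (95,64) [(456,2),(364,2)],.kids 321 (990,128) [(268,0)],.kids 129 (32,128) [(962,0)],.kids 195 (383,128) [(385,66),(724,130),(387,2)],.kids 66 (18,2) [(590,0)],.kids 258 (84,66) [(391,0)],.kids 130 (846,1) [(938,0),(393,0)],.kids 259 (456,2) [(956,3),(395,0)],.kids 129 (962,0) [(892,64),(48,0)],.kids 195 (279,130) [(397,128),(399,2),(724,130)],.kids 196 (30,3) [(334,128)],.kids 259 (892,2) [(403,64)],.kids 129 (32,128) [(48,0)],.kids 195 (399,2) [(405,128),(740,2),(387,2),(407,2)],.kids 195 (724,130) [(97,128),(49,2),(740,2)],.kids 320 (84,128) [(314,0)],.kids 131 (458,128) [(413,2)],.kids 132 (24,129) [(415,0)],.kids 196 (296,193) [(417,0)],.kids 129 (233,65) [(261,0)],.kids 133 (413,4) [(421,128)],.kids 197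 (5,193) [(419,2),(423,0)],.kids 257 (98,1) [(504,64)],.kids 66 (96,1) [(427,64)],.kids 65 (86,0) [(429,0)],.kids 193 (14,0) [(32,0)],.kids 256 (606,0) [(433,64)],.kids 195 (435,2) [(504,2),(95,0)],.kids 131 (486,2) [(431,2),(437,128)],.kids 195 (30,2) [(93,0)],.kids 67 (96,2) [(441,64)],.kids 67 (336,0) [(443,1)],.kids 256 (32,64) [(28,0)],.kids 1 (26,1) [(447,0)],.kids 258 (30,65) [(449,0)],.kids 257 (84,65) [(451,0)],.kids 259 (512,67) [(445,0),(453,66)],.kids 195 (111,0) [(510,1),(425,0),(439,1),(455,64)],.kids 130 (30,66) [(590,0)],.kids 66 (44,2) [(459,0)],.kids 259 (93,64) [(461,0)],.kids 67 (86,2) [(463,0)],.kids 129 (28,128) [(852,1)],.kids 384 (32,192) [(467,0)],.kids 129 (44,64) [(852,1)],.kids 128 (42,128) [(471,0)],.kids 129 (24,64) [(700,0)],.kids 1 (76,0) [(475,1)],.kids 129 (0,64) [(477,0)],.kids 65 (272,64) [(479,0)],.kids 258 (32,66) [(481,0)],.kids 66 (44,2) [(483,0)],.kids 195 (469,2) [(473,2),(485,128)],.kids 387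 (84,195) [(487,0)],.kids 323 (413,67) [(465,65),(489,0),(361,67)],.kids 325 (89,0) [(99,66),(275,129),(381,64),(389,66),(401,66),(409,66),(411,66),(457,129),(491,129)],.kids 389 (136,192) [(138,193),(164,192),(166,193),(176,194),(184,192),(194,192),(204,193),(212,192),(218,193),(230,193),(234,192),(240,193),(246,192),(986,0),(493,0)],.kids 195 (316,3) [(73,192)],.kids 321 (1,1) [(1006,128),(730,0)],.kids 4 (296,1) [(496,0)],.kids 4 (458,0) [(501,1)],.kids 195 (361,2) [(503,128)],.kids 196 (497,0) [(499,66),(1016,192),(505,65)],.kids 68 (272,0) [(366,1)],.kids 4 (58,0) [(60,0)],.kids 196 (490,1) [(64,128),(12,192)],.kids 259 (272,192) [(488,1)],.kids 1 (0,0) [(2,1)],.kids 65 (4,1) [(517,0)],.kids 194 (64,129) [(515,1),(519,192)],.kids 68 (272,0) [(554,1)],.kids 195 (509,194) [(513,2),(521,0),(523,194)],.kids 258 (26,1) [(452,0)],.kids 65 (32,64) [(248,0)],.kids 129 (96,65) [(529,0)],.kids 130 (98,129) [(531,0)],.kids 193 (28,192) [(533,0)],.kids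 448 (32,256) [(535,0)],.kids 449 (527,256) [(537,0),(38,256)],.kids 65 (44,1) [(340,0)],.kids 130 (964,1) [(50,1),(541,64)],.kids 257 (44,0) [(362,64)],.kids 386 (730,65) [(539,1),(543,64),(545,193)],.kids 256 (32,64) [(606,0)],.kids 65 (96,1) [(549,64)],.kids 66 (98,65) [(551,0)],.kids 321 (14,128) [(553,0)],.kids 256 (84,64) [(86,0)],.kids 67 (938,0) [(557,2)],.kids 68 (76,0) [(96,3)],.kids 1 (700,1) [(561,0)],.kids 258 (32,66) [(563,0)],.kids 259 (14,66) [(565,0)],.kids 65 (567,0) [(588,64)],.kids 195 (304,128) [(30,2)],.kids 66 (86,1) [(571,64)],.kids 193 (458,128) [(573,1)],.kids 131 (96,67) [(575,0)],.kids 132 (98,131) [(577,0)],.kids 387 (14,194) [(579,0)],.kids 194 (96,2) [(590,0)],.kids 258 (32,66) [(583,0)],.kids 259 (14,66) [(585,0)],.kids 195 (555,66) [(559,64),(569,128),(581,0),(587,128)],.kids 65 (24,1) [(458,0)],.kids 194 (32,2) [(591,128)],.kids 130 (84,65) [(340,0)],.kids 66 (96,1) [(595,0)],.kids 259 (593,64) [(597,2)],.kids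 67 (18,3) [(599,0)],.kids 195 (910,67) [(589,1),(601,64),(822,67)],.kids 129 (76,128) [(910,1)],.kids 193 (0,128) [(636,0)],.kids 196 (6,129) [(607,0)],.kids 258 (107,0) [(605,0),(609,64)],.kids 196 (226,128) [(150,128),(12,192),(611,0)],.kids 64 (2,64) [(114,0)],.kids 66 (64,1) [(615,1),(519,64)],.kids 195 (509,194) [(613,2),(617,128),(523,194)],.kids 196 (124,129) [(107,0)],.kids 259 (272,192) [(910,2)],.kids 193 (0,192) [(623,0)],.kids 257 (4,193) [(625,0)],.kids 130 (76,129) [(627,0)],.kids 194 (490,2) [(629,0)],.kids 65 (156,0) [(380,64)],.kids 69 (298,65) [(118,0)],.kids 69 (124,2) [(142,0),(298,65)],.kids 65 (226,0) [(380,64)],.kids 197 (621,2) [(631,0),(633,129),(635,129),(637,129),(639,129)],.kids 68 (4,64) [(151,1)],.kids 129 (0,64) [(643,1)],.kids 65 (458,0) [(645,0)],.copy 2 0 3,.kids 4 (649,0) [(690,1)],.kids 257 (0,192) [(413,1)],.kids 196 (651,129) [(653,0)],.kids 194 (460,129) [(647,128),(655,1)],.kids 196 (296,193)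 [(105,0)],.kids 194 (274,192) [(659,1)],.kids 68 (4,64) [(139,0)],.kids 1 (76,0) [(663,1)],.kids 129 (0,64) [(665,0)],.kids 65 (458,0) [(667,0)],.kids 258 (460,193) [(661,0),(669,192)],.kids 195 (30,2) [(458,128)],.kids 130 (878,2) [(464,128)],.kids 322 (586,66) [(592,128),(675,0)],.kids 257 (42,0) [(586,1)],.kids 64 (44,0) [(679,64)],.kids 65 (18,1) [(681,0)],.kids 67 (96,2) [(590,0)],.kids 258 (862,66) [(685,0)],.kids 130 (852,2) [(683,1),(687,64)],.kids 259 (657,64) [(671,0),(677,1),(689,1)],.kids 261 (507,2) [(525,64),(547,3),(603,1),(619,64),(641,65),(691,65)],.kids 131 (24,128) [(413,2)],.kids 257 (296,192) [(852,0)],.kids 129 (76,128) [(697,1)],.kids 257 (0,192) [(699,0)],.kids 196 (695,1) [(701,0)],.kids 129 (76,128) [(796,1)],.kids 257 (18,0) [(30,64)],.kids 64 (96,0) [(707,0)],.kids 129 (76,128) [(709,1)],.kids 129 (86,0) [(722,64)],.kids 258 (649,256) [(852,1)],.kids 320 (32,128) [(715,0)],.kids 321 (98,65) [(717,0)],.kids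 129 (76,128) [(719,0)],.kids 66 (705,0) [(711,0),(713,1),(721,0)],.kids 257 (0,192) [(723,0)],.kids 65 (0,64) [(78,0)],.kids 194 (80,128) [(725,1),(132,128),(519,192)],.kids 66 (132,0) [(64,1),(156,1)],.kids 67 (24,64) [(557,2)],.kids 195 (272,128) [(733,1)],.kids 130 (80,64) [(735,1),(156,65)],.kids 130 (519,128) [(735,1),(64,65)],.kids 195 (703,2) [(729,0),(731,128),(737,64),(739,64)],.kids 197 (132,128) [(695,2)],.kids 257 (0,192) [(697,1)],.kids 193 (76,128) [(745,0)],.kids 3 (304,2) [(306,0)],.kids 65 (44,0) [(404,1)],.kids 321 (284,128) [(324,0),(751,64)],.kids 193 (304,192) [(22,0)],.kids 66 (296,2) [(71,0)],.kids 323 (286,194) [(753,66),(755,2),(757,256)],.kids 194 (747,65) [(749,192),(759,0),(294,192)],.kids 321 (0,256) [(268,0)],.kids 257 (0,192) [(956,1)],.kids 129 (720,65) [(763,0),(765,64)],.kids 193 (76,192) [(767,0)],.kids 258 (142,192) [(118,192),(769,1)],.kids 129 (76,128) [(662,1)],.kids 196 (695,1) [(666,0)],.kids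 67 (296,2) [(458,0)],.kids 65 (372,1) [(777,0)],.kids 196 (4,192) [(695,1)],.kids 193 (0,192) [(227,0)],.kids 258 (779,192) [(781,2),(783,1)],.kids 193 (76,128) [(227,0)],.kids 67 (458,64) [(512,3)],.kids 68 (24,65) [(789,0)],.kids 132 (74,64) [(791,0)],.kids 130 (787,1) [(793,66),(749,128)],.kids 259 (743,65) [(761,0),(771,0),(775,66),(785,64),(795,64)],.kids 65 (76,64) [(404,1)],.kids 193 (32,1) [(458,128)],.kids 195 (18,2) [(801,64)],.kids 259 (30,66) [(803,0)],.kids 66 (76,65) [(805,0)],.kids 65 (18,1) [(88,64)],.kids 129 (84,128) [(809,0)],.kids 322 (799,65) [(807,64),(811,2)],.kids 258 (0,193) [(813,0)],.kids 194 (118,128) [(142,128),(815,0)],.kids 257 (98,1) [(926,64)],.kids 66 (96,1) [(819,64)],.kids 65 (18,1) [(821,0)],.kids 257 (0,192) [(823,0)],.kids 129 (76,128) [(825,0)],.kids 196 (124,129) [(827,0)],.kids 68 (2,0) [(285,0)],.kids 69 (118,0) [(831,66)],.kids 69 (298,65) [(150,1),(132,0)],.kids 197 (637,129) [(817,0),(210,128),(829,2),(833,129),(835,129)],.kids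 257 (0,192) [(312,1)],.kids 2 (540,2) [(839,0)],.kids 129 (76,128) [(841,0)],.kids 257 (0,192) [(711,0)],.kids 128 (18,0) [(448,64)],.kids 65 (84,0) [(448,1)],.kids 193 (0,128) [(849,1)],.kids 65 (76,64) [(851,0)],.kids 66 (843,0) [(845,0),(847,2),(853,64)],.kids 196 (156,128) [(64,128),(855,0)],.kids 67 (24,0) [(831,64)],.kids 4 (58,0) [(859,1)],.kids 66 (76,1) [(519,64)],.kids 2 (74,2) [(863,0)],.kids 70 (156,2) [(861,3),(865,0)],.kids 68 (4,64) [(861,1)],.kids 129 (0,64) [(869,1)],.kids 66 (871,1) [(80,0),(132,0)],.kids 68 (24,1) [(298,64)],.kids 4 (58,0) [(875,0)],.kids 66 (2,66) [(132,0)],.kids 65 (0,64) [(24,1)],.kids 129 (4,65) [(881,0)],.kids 4 (76,3) [(883,0)],.kids 66 (2,66) [(885,0)],.kids 67 (78,2) [(879,0),(887,0)],.kids 71 (156,3) [(877,4),(889,0)],.kids 65 (18,1) [(277,64)],.kids 259 (893,3) [(757,192)],.kids 68 (76,0) [(24,1)],.kids 4 (58,0) [(897,0)],.kids 66 (2,66) [(375,0)],.kids 67 (0,66) [(901,0)],.kids 131 (4,67)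 [(903,0)],.kids 71 (899,4) [(905,0),(64,3)],.kids 133 (822,5) [(895,1),(907,128)],.kids 260 (729,65) [(761,1),(857,67),(867,193),(873,193),(891,192),(909,64)],.kids 69 (96,4) [(656,0)],.kids 132 (553,3) [(585,65),(913,64)],.kids 324 (14,131) [(915,0)],.kids 259 (593,64) [(892,2)],.kids 67 (18,3) [(919,0)],.kids 131 (910,3) [(917,0),(921,0),(822,3)],.kids 194 (80,128) [(701,1),(519,192)],.kids 193 (44,0) [(14,64)],.kids 193 (272,192) [(605,0)],.kids 196 (32,195) [(929,0)],.kids 388 (14,195) [(931,0)],.kids 257 (542,0) [(86,1)],.kids 194 (14,1) [(935,0)],.kids 65 (272,64) [(565,0)],.kids 195 (44,2) [(939,0)],.kids 387 (927,130) [(933,0),(937,194),(941,128)],.kids 321 (0,256) [(189,0)],.kids 260 (304,193) [(945,0)],.kids 194 (91,192) [(943,0),(947,1)],.kids 68 (4,64) [(76,0)],.kids 68 (0,64) [(951,1)],.kids 257 (893,1) [(953,128),(361,1)],.kids 195 (910,67) [(949,0),(955,65)],.kids 129 (304,128) [(586,0)],.kids 257 (0,192) [(959,1)],.kids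 129 (76,128) [(961,0)],.kids 194 (80,128) [(963,1),(519,192)],.kids 130 (6,129) [(367,0)],.kids 129 (76,128) [(967,0)],.kids 193 (458,128) [(969,0)],.kids 196 (612,3) [(971,64)],.kids 65 (304,64) [(616,1)],.kids 65 (76,64) [(975,1)],.kids 129 (272,128) [(977,0)],.kids 65 (18,1) [(408,64)],.kids 68 (74,0) [(338,65)],.kids 1 (76,0) [(983,1)],.kids 65 (272,64) [(985,0)],.kids 259 (979,64) [(981,2),(987,128)],.kids 195 (910,67) [(973,0),(989,64),(822,67)],.kids 64 (2,64) [(24,0)],.kids 68 (76,0) [(286,1)],.kids 68 (4,64) [(995,1)],.kids 129 (0,64) [(997,1)],.kids 66 (993,1) [(999,1),(883,0),(519,64)],.kids 132 (822,4) [(1001,128),(910,4)],.kids 259 (925,64) [(761,0),(957,1),(729,64),(965,64),(991,1),(1003,64)],.kids 262 (741,65) [(797,1),(837,66),(911,0),(547,4),(923,66),(1005,1)],.kids 65 (44,1) [(298,64)],.kids 132 (606,4) [(274,64)],.kids 5 (24,2) [(1011,0)],.kids 66 (44,2) [(1013,0)],.kids 66 (296,2) [(498,0)],.kids 69 (1009,1) [(1015,0),(1017,64)],.kids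 68 (96,3) [(1019,0)],.kids 131 (250,2) [(1021,64),(268,2),(102,3)]]
theorem chk1 : checkFrom E1 t1 j1 0 = true := by decide +kernel
end Vale.Agent.P062
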