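import Vale.Agent.P062.Transport
import Vale.Agent.P062.Cert.D0
import Vale.Agent.P062.Cert.D1
import Vale.Agent.P062.Cert.D2
namespace Vale.Agent.P062
def E2 : Tree := .node t0 t1
set_option maxRecDepth 1000000 in
def j2 : List Just := [.kids 66 (88,2) [(552,64)],.kids 68 (192,3) [(1,0)],.kids 259 (266,64) [(3,0)],.kids 323 (536,2) [(266,128)],.kids 195 (36,2) [(1132,64)],.kids 130 (500,1) [(9,64),(728,65)],.kids 130 (204,2) [(9,64),(716,65)],.kids 195 (2046,0) [(5,128),(7,64),(11,1),(13,1)],.kids 69 (192,4) [(264,0)],.kids 68 (192,3) [(24,64)],.kids 66 (1046,65) [(17,0),(19,1)],.kids 67 (88,3) [(21,0)],.kids 132 (1928,3) [(100,3),(23,64)],.kids 67 (192,2) [(2004,0)],.kids 259 (266,64) [(27,1)],.kids 193 (168,128) [(172,0)],.kids 65 (624,64) [(31,0)],.kids 259 (196,3) [(266,64)],.kids 193 (172,1) [(302,192)],.kids 257 (64,65) [(37,0)],.kids 66 (192,2) [(39,0)],.kids 132 (33,3) [(35,128),(41,65)],.kids 66 (88,1) [(39,0)],.kids 193 (172,1)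 [(676,192)],.kids 257 (64,65) [(47,0)],.kids 258 (84,1) [(49,0)],.kids 129 (564,1) [(45,64),(51,128)],.kids 196 (7,65) [(652,0),(25,0),(29,129),(43,1),(53,2)],.kids 195 (544,128) [(172,3)],.kids 196 (12,129) [(57,0)],.kids 68 (48,65) [(59,0)],.kids 129 (88,65) [(61,0)],.kids 65 (544,64) [(992,1)],.kids 66 (592,2) [(65,0)],.kids 133 (2018,65) [(63,1),(67,128)],.kids 132 (192,67) [(69,0)],.kids 131 (100,2) [(1928,2),(71,0)],.kids 321 (76,128) [(912,64),(100,0)],.kids 68 (192,3) [(442,0)],.kids 66 (88,2) [(77,0)],.kids 259 (76,66) [(79,0)],.kids 321 (808,65) [(912,64),(536,0)],.kids 323 (1932,66) [(73,0),(75,66),(81,128),(83,66)],.kids 68 (192,3) [(744,64)],.kids 128 (630,128) [(87,0)],.kids 66 (88,2) [(89,0)],.kids 260 (2046,65) [(652,64),(792,193),(804,67),(540,67),(844,3),(888,1)],.kids 2 (608,2) [(664,0)],.kids 65 (48,1) [(156,0)],.kids 66 (0,65) [(97,0)],.kids 130 (8,66) [(99,0)],.kids 67 (116,3) [(101,0)],.kids 7 (48,4) [(103,0)],.kids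 71 (1628,4) [(105,0),(248,4)],.kids 194 (236,128) [(284,128),(718,1)],.kids 68 (152,0) [(1664,1)],.kids 198 (95,129) [(107,128),(109,1),(111,131)],.kids 4 (48,1) [(1298,0)],.kids 65 (0,64) [(115,1)],.kids 129 (8,65) [(117,0)],.kids 195 (0,192) [(210,0)],.kids 196 (48,193) [(121,0)],.kids 258 (119,192) [(123,1),(1890,1)],.kids 261 (608,194) [(125,0)],.kids 132 (1466,1) [(1970,64)],.kids 129 (544,128) [(129,0)],.kids 194 (668,192) [(127,0),(131,64),(848,192)],.kids 131 (500,2) [(3,64),(204,3)],.kids 67 (152,0) [(608,1)],.kids 67 (36,3) [(672,0)],.kids 259 (48,195) [(139,0)],.kids 262 (608,195) [(141,0)],.kids 68 (634,0) [(916,64)],.kids 131 (608,64) [(145,0)],.kids 257 (0,192) [(88,0)],.kids 64 (1340,64) [(149,0)],.kids 132 (48,129) [(151,0)],.kids 195 (152,128) [(153,0)],.kids 65 (36,1) [(155,0)],.kids 198 (137,130) [(143,0),(147,131),(157,2)],.kids 260 (28,67) [(1826,0)],.kids 131 (1632,3) [(159,0),(161,64)],.kids 257 (192,1) [(2012,64)],.kids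 68 (856,64) [(165,2),(1000,64)],.kids 195 (668,193) [(163,0),(167,65)],.kids 130 (500,1) [(27,64),(204,2)],.kids 65 (916,0) [(0,64)],.kids 129 (8,65) [(173,0)],.kids 66 (1298,2) [(175,0)],.kids 6 (48,3) [(177,0)],.kids 70 (608,3) [(179,0)],.kids 131 (60,67) [(22,0)],.kids 67 (88,3) [(183,0)],.kids 68 (172,3) [(185,0)],.kids 259 (181,192) [(187,0)],.kids 68 (48,1) [(10,64)],.kids 4 (116,0) [(191,0)],.kids 65 (544,64) [(193,1)],.kids 257 (84,0) [(1024,65)],.kids 64 (88,0) [(197,64)],.kids 65 (36,1) [(199,0)],.kids 196 (1958,64) [(195,128),(201,2)],.kids 195 (668,193) [(189,0),(203,1),(848,193)],.kids 1 (52,1) [(64,0)],.kids 257 (88,0) [(568,64)],.kids 257 (196,1) [(209,64)],.kids 66 (192,1) [(211,64)],.kids 129 (207,64) [(213,64),(828,0),(204,1)],.kids 258 (848,256) [(215,2),(668,256)],.kids 196 (135,1) [(652,0),(169,64),(2046,1),(171,2),(205,64),(217,1)],.kids 388 (15,65) [(55,64),(85,129),(93,0),(113,192),(133,129),(219,64)],.kids 2 (580,0)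 [(608,1)],.kids 68 (576,0) [(223,0)],.kids 67 (608,2) [(664,0)],.kids 3 (544,0) [(732,1)],.kids 67 (544,0) [(576,1)],.kids 1 (580,1) [(231,0)],.kids 69 (225,2) [(227,0),(229,1),(233,0)],.kids 196 (980,1) [(300,128),(312,128)],.kids 131 (916,128) [(1172,3)],.kids 132 (48,129) [(239,0)],.kids 197 (312,129) [(264,128),(241,1)],.kids 66 (12,66) [(284,0)],.kids 197 (1018,194) [(237,2),(243,1),(245,128)],.kids 4 (916,0) [(48,1)],.kids 193 (64,1) [(249,128)],.kids 66 (28,2) [(848,64)],.kids 66 (88,2) [(253,64)],.kids 259 (251,65) [(255,0),(728,2)],.kids 67 (36,3) [(257,0)],.kids 68 (152,0) [(10,64)],.kids 67 (192,2) [(852,64)],.kids 66 (172,1) [(263,0)],.kids 257 (28,64) [(265,0)],.kids 257 (1400,0) [(866,65)],.kids 258 (1232,65) [(267,0),(269,64)],.kids 131 (261,64) [(271,1)],.kids 131 (1820,3) [(259,0),(273,66),(1644,3)],.kids 195 (0,192) [(976,1)],.kids 196 (48,193) [(277,0)],.kids 257 (279,0) [(386,128)],.kids 260 (608,193) [(281,0)],.kids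 68 (608,1) [(992,64)],.kids 129 (916,64) [(285,1)],.kids 194 (558,2) [(287,64)],.kids 323 (44,2) [(289,128),(1460,2)],.kids 67 (168,2) [(852,64)],.kids 67 (192,2) [(293,64)],.kids 66 (172,1) [(295,0)],.kids 258 (263,0) [(870,65)],.kids 130 (1114,65) [(297,0),(299,64)],.kids 195 (1840,0) [(984,1),(301,1)],.kids 260 (127,1) [(275,0),(283,2),(291,1),(303,2)],.kids 67 (192,2) [(592,64)],.kids 129 (544,128) [(307,1)],.kids 257 (0,192) [(1556,1)],.kids 193 (916,128) [(311,0)],.kids 194 (64,2) [(313,0)],.kids 196 (60,3) [(315,0)],.kids 67 (309,0) [(317,64)],.kids 130 (40,2) [(319,64),(1456,2)],.kids 1 (56,0) [(504,1)],.kids 257 (1054,64) [(724,64),(902,0)],.kids 323 (1460,2) [(321,0),(325,130),(44,2)],.kids 66 (88,2) [(309,0)],.kids 194 (64,2) [(996,128)],.kids 133 (608,66) [(331,0)],.kids 67 (329,0) [(333,64)],.kids 194 (1448,2) [(287,64)],.kids 257 (88,0) [(76,64)],.kids 323 (1460,2) [(335,64),(337,128),(339,130)],.kids 259 (668,192) [(291,0),(327,0),(341,0)],.kids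 66 (4,66) [(284,0)],.kids 196 (128,128) [(312,128),(1450,0)],.kids 66 (0,65) [(236,0)],.kids 130 (8,66) [(349,0)],.kids 3 (916,0) [(302,2)],.kids 4 (48,1) [(353,0)],.kids 65 (0,64) [(355,0)],.kids 129 (8,65) [(357,0)],.kids 66 (156,1) [(355,1),(236,0)],.kids 67 (264,1) [(351,0),(359,1),(361,0),(452,2)],.kids 66 (4,66) [(236,0)],.kids 196 (345,129) [(347,3),(363,128),(1758,129),(365,129)],.kids 68 (12,65) [(312,0)],.kids 67 (544,0) [(608,2)],.kids 69 (580,1) [(371,0)],.kids 67 (345,0) [(369,2),(373,66)],.kids 197 (235,195) [(247,2),(305,2),(343,3),(367,0),(375,129)],.kids 128 (32,0) [(28,64)],.kids 257 (640,0) [(379,0)],.kids 192 (36,0) [(896,64)],.kids 193 (28,128) [(1456,0)],.kids 193 (36,0) [(640,64)],.kids 64 (32,64) [(387,0)],.kids 321 (381,128) [(383,64),(385,0),(389,0)],.kids 259 (912,2) [(266,64)],.kids 129 (60,129) [(1928,0)],.kids 323 (7,64) [(393,128),(395,2),(900,131)],.kids 194 (192,2) [(1132,64)],.kids 258 (64,66) [(399,0)],.kids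 67 (401,0) [(680,1)],.kids 259 (28,66) [(403,0)],.kids 129 (608,128) [(1644,1)],.kids 129 (152,128) [(407,1)],.kids 196 (1466,65) [(409,0),(312,128)],.kids 193 (544,192) [(411,0)],.kids 193 (0,128) [(554,1)],.kids 129 (916,64) [(415,0)],.kids 68 (608,1) [(417,0)],.kids 68 (1340,0) [(1380,65)],.kids 132 (302,65) [(419,0),(421,1)],.kids 257 (88,0) [(1172,1)],.kids 194 (423,64) [(425,1)],.kids 194 (668,192) [(413,0),(427,129),(848,192)],.kids 66 (172,1) [(1548,64)],.kids 131 (1564,128) [(431,1)],.kids 197 (616,128) [(433,2),(95,128)],.kids 132 (415,0) [(1302,65)],.kids 130 (920,65) [(1294,64),(437,1)],.kids 195 (1728,0) [(1868,65),(439,64)],.kids 260 (405,129) [(429,0),(435,64),(441,128),(1834,64)],.kids 193 (0,128) [(168,1)],.kids 66 (36,2) [(445,64)],.kids 68 (192,3) [(740,64)],.kids 67 (172,2) [(449,0)],.kids 131 (48,128) [(451,0)],.kids 259 (12,192) [(453,0)],.kids 193 (447,0) [(455,1)],.kids 130 (612,128) [(457,1),(664,128)],.kids 68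 (1628,1) [(340,0),(1664,1)],.kids 197 (95,128) [(459,0),(461,130),(616,128)],.kids 129 (152,128) [(447,0)],.kids 195 (12,128) [(172,2)],.kids 67 (48,64) [(467,0)],.kids 258 (28,65) [(469,0)],.kids 193 (465,0) [(471,65)],.kids 131 (1006,128) [(431,1)],.kids 197 (95,128) [(473,1),(475,2),(696,130)],.kids 196 (1820,3) [(435,0),(463,0),(477,0)],.kids 129 (52,129) [(1928,0)],.kids 259 (716,2) [(728,2),(2042,0)],.kids 64 (88,0) [(248,0)],.kids 66 (88,2) [(144,64)],.kids 69 (2034,64) [(485,2),(487,0)],.kids 68 (192,3) [(489,0)],.kids 131 (1928,2) [(100,2),(491,64)],.kids 129 (52,129) [(100,0)],.kids 195 (481,2) [(483,128),(493,0),(820,2),(495,2)],.kids 257 (60,65) [(728,0)],.kids 193 (36,0) [(28,128)],.kids 321 (32,64) [(501,0)],.kids 193 (820,0) [(499,128),(503,129)],.kids 259 (391,131) [(397,64),(443,64),(479,128),(497,0),(505,2)],.kids 257 (64,64) [(192,1)],.kids 194 (36,1) [(509,128)],.kids 384 (56,128) [(511,0)],.kids 65 (88,0) [(513,0)],.kids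 64 (84,64) [(515,0)],.kids 385 (536,64) [(517,64),(800,0),(716,128)],.kids 194 (900,130) [(1916,128),(519,1),(1440,130)],.kids 66 (152,1) [(144,64)],.kids 2 (148,2) [(523,0)],.kids 67 (544,0) [(676,2)],.kids 68 (12,1) [(527,0)],.kids 65 (152,0) [(529,64)],.kids 1 (148,1) [(531,0)],.kids 2 (256,1) [(529,1),(144,0)],.kids 195 (264,129) [(1402,2),(525,128),(533,129),(535,192)],.kids 66 (0,65) [(750,0)],.kids 130 (8,66) [(539,0)],.kids 68 (152,0) [(1628,1)],.kids 68 (8,64) [(543,1)],.kids 129 (0,64) [(545,1)],.kids 66 (48,2) [(750,0)],.kids 67 (541,0) [(547,2),(549,0),(1766,1)],.kids 195 (60,2) [(1602,0)],.kids 194 (553,0) [(1852,1),(1724,2)],.kids 130 (1704,2) [(1864,1),(555,128)],.kids 194 (182,192) [(557,0)],.kids 257 (168,65) [(640,0)],.kids 257 (36,0) [(561,64)],.kids 129 (1526,0) [(563,65),(1530,64)],.kids 193 (152,192) [(565,0)],.kids 258 (567,1) [(1766,192),(97,192)],.kids 65 (0,64) [(353,0)],.kids 129 (8,65) [(571,0)],.kids 66 (156,1)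 [(750,0),(353,1)],.kids 195 (264,129) [(541,128),(573,129),(575,128),(1926,2)],.kids 66 (48,2) [(144,64)],.kids 67 (152,2) [(579,0)],.kids 193 (0,128) [(730,1)],.kids 65 (152,64) [(583,0)],.kids 196 (976,1) [(585,64)],.kids 194 (608,193) [(587,0)],.kids 2 (544,0) [(608,1)],.kids 195 (581,192) [(589,2),(591,194)],.kids 1 (152,0) [(608,1)],.kids 68 (8,64) [(1628,1)],.kids 129 (0,64) [(597,1)],.kids 3 (152,2) [(1182,0)],.kids 66 (0,65) [(601,0)],.kids 130 (8,66) [(603,0)],.kids 70 (595,2) [(599,2),(605,0)],.kids 65 (48,1) [(2016,0)],.kids 131 (0,66) [(609,0)],.kids 66 (156,1) [(611,0),(97,0)],.kids 70 (595,2) [(599,2),(613,0)],.kids 260 (537,64) [(551,192),(559,2),(569,1),(577,64),(593,0),(607,193),(615,193)],.kids 194 (152,128) [(1490,0)],.kids 321 (76,128) [(536,0)],.kids 67 (608,1) [(544,0)],.kids 67 (192,2) [(623,64)],.kids 65 (88,1) [(625,0)],.kids 130 (1928,1) [(100,1),(627,64)],.kids 67 (192,2) [(2018,0)],.kids 258 (76,65) [(631,0)],.kids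 1 (0,0) [(28,1)],.kids 65 (592,1) [(635,0)],.kids 67 (192,2) [(637,64)],.kids 322 (76,129) [(639,64),(1928,1)],.kids 65 (152,64) [(36,1)],.kids 129 (0,128) [(643,0)],.kids 193 (592,129) [(645,0)],.kids 195 (582,2) [(647,64)],.kids 194 (621,65) [(629,0),(633,128),(641,64),(75,65),(649,0)],.kids 192 (48,128) [(64,0)],.kids 194 (60,1) [(653,0)],.kids 129 (536,0) [(655,128)],.kids 192 (1528,128) [(64,0)],.kids 66 (192,1) [(12,64)],.kids 257 (659,64) [(594,0)],.kids 321 (100,0) [(1928,0),(594,64)],.kids 129 (536,0) [(1912,65),(912,64)],.kids 193 (36,0) [(592,192)],.kids 257 (60,64) [(669,0)],.kids 321 (1928,0) [(671,65),(659,128)],.kids 321 (100,0) [(671,65),(659,128)],.kids 193 (657,0) [(663,128),(665,64),(667,0),(673,64),(675,64)],.kids 1 (0,0) [(12,1)],.kids 3 (592,1) [(679,0)],.kids 65 (634,65) [(681,0)],.kids 194 (629,0) [(657,1),(683,192)],.kids 67 (152,1) [(1766,0)],.kids 192 (592,128) [(60,0)],.kids 257 (36,0) [(689,64)],.kids 192 (630,192)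 [(1460,0)],.kids 260 (916,256) [(693,0)],.kids 193 (60,0) [(592,128)],.kids 257 (88,0) [(697,65)],.kids 64 (630,64) [(699,0)],.kids 132 (916,128) [(701,0)],.kids 64 (608,64) [(88,0)],.kids 65 (60,65) [(705,0)],.kids 130 (544,128) [(707,0)],.kids 196 (916,192) [(709,0)],.kids 193 (691,129) [(695,0),(703,128),(711,64)],.kids 322 (152,256) [(713,0)],.kids 322 (619,129) [(651,0),(677,1),(685,0),(687,256),(715,1)],.kids 257 (1212,1) [(60,64)],.kids 256 (168,64) [(719,0)],.kids 130 (0,128) [(721,1)],.kids 320 (1528,256) [(774,0)],.kids 321 (723,128) [(582,1),(725,0)],.kids 194 (0,192) [(1172,1)],.kids 65 (64,64) [(705,0)],.kids 256 (1528,192) [(731,0)],.kids 321 (729,64) [(582,1),(733,64)],.kids 68 (192,3) [(466,64)],.kids 129 (152,128) [(737,1)],.kids 68 (172,3) [(739,0)],.kids 132 (48,129) [(741,0)],.kids 196 (0,192) [(743,0)],.kids 259 (2034,192) [(727,2),(735,2),(745,2)],.kids 196 (747,0) [(1108,195),(732,195)],.kids 196 (544,194) [(747,0)],.kids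 2 (544,0) [(1108,1)],.kids 259 (736,258) [(717,1),(749,64),(751,64),(753,258)],.kids 197 (395,4) [(1440,133),(755,0)],.kids 131 (536,2) [(266,128)],.kids 66 (668,64) [(339,2)],.kids 323 (759,0) [(761,128),(1932,66),(83,66)],.kids 67 (916,0) [(992,1)],.kids 65 (744,1) [(765,0)],.kids 69 (767,64) [(1902,2),(95,0)],.kids 1 (56,0) [(60,1)],.kids 128 (168,64) [(624,0)],.kids 256 (176,0) [(773,0)],.kids 257 (64,64) [(1414,1)],.kids 65 (771,0) [(775,64),(777,0)],.kids 195 (1000,128) [(1448,2)],.kids 195 (826,3) [(1514,192)],.kids 259 (769,129) [(779,3),(781,65),(783,0)],.kids 3 (1560,2) [(48,0)],.kids 64 (88,0) [(787,0)],.kids 258 (60,65) [(789,0)],.kids 69 (2018,1) [(791,2),(67,64)],.kids 68 (192,3) [(793,0)],.kids 259 (76,66) [(728,2),(795,0)],.kids 129 (500,0) [(1784,64),(204,1)],.kids 195 (395,2) [(797,128),(799,2),(1440,131)],.kids 65 (60,65) [(207,0)],.kids 258 (60,65) [(787,0)],.kids 67 (592,64) [(805,0)],.kids 64 (88,0) [(807,0)],.kids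 66 (192,1) [(809,0)],.kids 257 (1912,1) [(102,0),(811,0)],.kids 257 (196,1) [(102,0)],.kids 66 (192,1) [(815,64)],.kids 192 (172,0) [(1232,128)],.kids 129 (496,64) [(96,0),(819,64)],.kids 193 (536,64) [(94,0),(817,128),(821,0)],.kids 257 (803,128) [(813,192),(823,0)],.kids 322 (668,320) [(825,2),(848,320)],.kids 389 (521,67) [(617,128),(757,64),(763,130),(785,193),(801,66),(827,2)],.kids 195 (60,2) [(48,128)],.kids 193 (916,128) [(831,1)],.kids 194 (64,2) [(833,0)],.kids 259 (728,2) [(912,2),(835,64)],.kids 321 (536,0) [(1928,0),(728,64)],.kids 323 (900,131) [(837,128),(839,66),(395,2)],.kids 131 (48,128) [(180,2)],.kids 322 (28,129) [(843,0)],.kids 194 (845,2) [(264,128)],.kids 1 (12,1) [(256,0)],.kids 194 (128,129) [(845,2),(849,192)],.kids 68 (152,0) [(596,64)],.kids 197 (95,128) [(847,0),(851,0),(853,130)],.kids 195 (192,3) [(1186,64)],.kids 259 (64,67) [(857,0)],.kids 68 (859,0) [(14,1)],.kids 260 (28,67) [(861,0)],.kids 65 (12,65)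 [(1986,0)],.kids 192 (64,0) [(592,128)],.kids 194 (36,1) [(867,64)],.kids 258 (60,65) [(869,0)],.kids 257 (168,65) [(871,0)],.kids 193 (0,128) [(873,0)],.kids 132 (608,65) [(875,0)],.kids 69 (608,2) [(849,64)],.kids 65 (0,64) [(1986,0)],.kids 129 (8,65) [(881,0)],.kids 69 (608,2) [(883,0)],.kids 130 (865,64) [(877,1),(879,64),(885,64)],.kids 257 (12,256) [(1704,0)],.kids 129 (152,128) [(889,1)],.kids 257 (0,192) [(891,0)],.kids 193 (544,192) [(893,0)],.kids 196 (1352,130) [(895,0)],.kids 194 (668,192) [(887,128),(897,0),(848,192)],.kids 65 (12,65) [(249,0)],.kids 259 (916,192) [(808,3)],.kids 257 (592,193) [(903,0)],.kids 258 (168,66) [(905,0)],.kids 195 (592,130) [(907,0)],.kids 194 (0,129) [(909,0)],.kids 258 (168,66) [(1610,0)],.kids 66 (152,65) [(913,0)],.kids 194 (0,129) [(915,0)],.kids 133 (911,0) [(595,65),(917,0)],.kids 69 (264,0) [(128,1),(1798,2)],.kids 130 (901,64) [(919,0),(921,64)],.kids 260 (1834,64) [(855,64),(863,128),(435,64),(899,0),(923,128)],.kids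 68 (592,65) [(148,0)],.kids 1 (152,0) [(927,1)],.kids 65 (544,64) [(929,0)],.kids 131 (48,128) [(628,2)],.kids 195 (592,192) [(933,0)],.kids 131 (48,128) [(1680,2)],.kids 66 (1036,66) [(937,0)],.kids 193 (544,192) [(939,1)],.kids 196 (931,128) [(935,2),(941,0)],.kids 132 (608,65) [(445,0)],.kids 66 (36,2) [(945,64)],.kids 194 (182,192) [(943,0),(947,65)],.kids 259 (901,193) [(949,1),(1790,64)],.kids 66 (12,66) [(264,0)],.kids 196 (845,1) [(595,128)],.kids 195 (1790,0) [(953,128),(955,2)],.kids 261 (1820,68) [(435,65),(951,0),(957,64)],.kids 193 (481,0) [(499,128),(503,129)],.kids 260 (391,132) [(841,65),(925,65),(959,64),(497,1),(961,3)],.kids 66 (160,0) [(128,1)],.kids 195 (1026,2) [(965,128),(1046,194),(1018,194)],.kids 129 (88,64) [(208,1)],.kids 128 (84,128) [(969,0)],.kids 193 (36,0) [(1024,128)],.kids 257 (60,64) [(973,0)],.kids 65 (88,0) [(975,1)],.kids 64 (84,64) [(977,0)],.kids 128 (200,64) [(975,64),(208,0)],.kids 195 (536,66)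 [(3,128),(971,2),(979,66),(981,3)],.kids 257 (196,1) [(1090,64)],.kids 66 (192,1) [(985,64)],.kids 193 (94,0) [(987,128),(814,0),(828,64)],.kids 131 (469,0) [(948,64),(968,128)],.kids 130 (1176,129) [(960,64),(991,2)],.kids 131 (1632,3) [(993,0)],.kids 66 (17,0) [(58,65),(19,1)],.kids 67 (88,3) [(997,0)],.kids 132 (999,64) [(828,3),(1058,3)],.kids 65 (192,1) [(819,0)],.kids 66 (196,65) [(1003,0)],.kids 194 (536,65) [(94,1),(1005,65),(821,1),(27,128)],.kids 129 (64,128) [(208,1)],.kids 193 (88,128) [(1009,0)],.kids 259 (1186,64) [(660,0)],.kids 131 (28,67) [(1013,0)],.kids 128 (36,0) [(28,64)],.kids 195 (1011,3) [(1015,128),(1017,131)],.kids 257 (196,1) [(724,64)],.kids 66 (192,1) [(1021,64)]]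
theorem chk2 : checkFrom E2 t2 j2 0 = true := by decide +kernel
end Vale.Agent.P062
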