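import Vale.Agent.P062.Transport
import Vale.Agent.P062.Cert.D0
import Vale.Agent.P062.Cert.D1
import Vale.Agent.P062.Cert.D2
import Vale.Agent.P062.Cert.D3
namespace Vale.Agent.P062
def E3 : Tree := .node (.node t0 t1) t2
set_option maxRecDepth 1000000 in
def j3 : List Just := [.kids 192 (176,128) [(1944,0)],.kids 129 (384,65) [(1,0)],.kids 130 (392,129) [(3,0)],.kids 385 (204,128) [(2046,128),(5,0)],.kids 65 (128,64) [(1542,0)],.kids 194 (384,129) [(9,0)],.kids 129 (992,64) [(11,0),(2116,0)],.kids 385 (204,128) [(2046,128),(13,0)],.kids 260 (1966,1) [(1978,3),(1990,128),(2002,64),(2014,2),(2038,0),(7,67),(15,67)],.kids 128 (72,0) [(2872,64)],.kids 131 (176,2) [(1112,0)],.kids 69 (496,2) [(528,0)],.kids 193 (72,0) [(56,64)],.kids 65 (304,64) [(25,1)],.kids 193 (0,128) [(27,0)],.kids 130 (472,64) [(568,64),(29,1)],.kids 193 (0,128) [(1616,1)],.kids 65 (304,64) [(33,0)],.kids 132 (496,65) [(35,0)],.kids 259 (3016,192) [(1264,3)],.kids 195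 (23,129) [(31,64),(37,66),(39,0),(864,129)],.kids 3 (96,0) [(128,2)],.kids 131 (24,64) [(43,0)],.kids 66 (528,0) [(45,2)],.kids 1 (304,0) [(120,1)],.kids 129 (0,64) [(49,0)],.kids 68 (1574,1) [(51,0)],.kids 69 (472,0) [(568,0),(51,1)],.kids 66 (600,1) [(528,0),(48,65)],.kids 67 (1088,0) [(336,3)],.kids 68 (24,1) [(59,0)],.kids 69 (1574,2) [(61,65),(568,0)],.kids 69 (472,0) [(61,65),(1574,2)],.kids 67 (47,0) [(53,2),(55,1),(57,0),(63,1),(65,1)],.kids 64 (384,0) [(120,64)],.kids 192 (336,64) [(69,0)],.kids 65 (2168,65) [(71,0)],.kids 131 (31,0) [(47,64),(73,3)],.kids 193 (176,64) [(1656,0)],.kids 3 (24,0) [(336,2)],.kids 68 (1088,0) [(79,1)],.kids 3 (2160,3) [(190,0)],.kids 260 (344,4) [(83,0)],.kids 67 (24,0) [(336,2)],.kids 68 (304,0) [(87,65)],.kids 1 (2160,1) [(89,0)],.kids 258 (344,2) [(91,0)],.kids 1 (304,0) [(56,1)],.kids 130 (72,2) [(95,0)],.kids 65 (24,65) [(97,0)],.kids 259 (344,3) [(99,0)],.kids 67 (81,66) [(85,0),(93,2),(101,1)],.kids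 133 (176,4) [(103,0)],.kids 197 (21,130) [(41,0),(67,128),(75,64),(77,68),(105,128)],.kids 129 (384,1) [(1184,64)],.kids 68 (0,64) [(109,1)],.kids 5 (3120,4) [(1098,0)],.kids 69 (111,2) [(3016,64),(113,0)],.kids 65 (96,1) [(95,0)],.kids 4 (3120,3) [(117,0)],.kids 69 (111,2) [(119,1),(3016,64)],.kids 257 (0,192) [(468,1)],.kids 66 (176,2) [(123,64)],.kids 257 (1832,192) [(125,0)],.kids 258 (128,66) [(127,0)],.kids 259 (384,3) [(129,0)],.kids 196 (368,3) [(115,128),(121,128),(131,128)],.kids 259 (133,0) [(2872,195),(1792,195)],.kids 259 (72,131) [(133,0)],.kids 196 (19,132) [(107,0),(135,1),(137,1),(3388,132)],.kids 323 (2092,322) [(139,0),(1906,256)],.kids 1 (304,0) [(1318,0)],.kids 132 (24,65) [(143,0)],.kids 321 (3196,64) [(145,128),(3244,1)],.kids 257 (0,192) [(147,0)],.kids 67 (96,0) [(40,64)],.kids 4 (232,0) [(151,1)],.kids 131 (24,64) [(1888,2)],.kids 5 (232,1) [(155,0)],.kids 68 (272,64) [(153,1),(157,0),(496,1)],.kids 196 (624,128)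 [(149,0),(159,129)],.kids 66 (2076,64) [(904,1),(320,0)],.kids 195 (2092,194) [(161,2),(163,128),(1906,128)],.kids 132 (24,65) [(1318,0)],.kids 193 (336,1) [(167,0)],.kids 1 (304,0) [(169,0)],.kids 129 (0,64) [(171,0)],.kids 68 (48,64) [(1190,0),(173,0)],.kids 68 (16,64) [(1190,0)],.kids 129 (0,64) [(177,1)],.kids 67 (528,1) [(1082,0),(179,2),(1150,0)],.kids 68 (1730,2) [(175,3),(181,0)],.kids 133 (3640,5) [(183,128),(3288,5)],.kids 326 (1934,129) [(17,2),(141,1),(3188,65),(165,129),(185,128),(2028,67)],.kids 131 (666,128) [(1072,2)],.kids 64 (120,64) [(400,0)],.kids 131 (666,128) [(191,3),(1432,66)],.kids 257 (176,0) [(1616,1)],.kids 323 (2920,2) [(189,0),(193,0),(195,130)],.kids 257 (558,0) [(2544,64)],.kids 260 (1216,193) [(199,0)],.kids 196 (344,3) [(20,192)],.kids 68 (336,67) [(203,0)],.kids 195 (336,130) [(205,0)],.kids 132 (1184,129) [(207,0)],.kids 131 (384,66) [(209,0)],.kids 3 (96,0) [(336,2)],.kids 131 (1088,64) [(213,1)],.kids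 132 (24,65) [(215,0)],.kids 68 (1184,65) [(217,0)],.kids 65 (176,1) [(219,0)],.kids 67 (384,2) [(221,0)],.kids 322 (211,0) [(204,65),(223,64)],.kids 258 (1606,129) [(225,128),(1646,1)],.kids 387 (254,128) [(197,128),(201,129),(582,128),(227,1)],.kids 256 (344,0) [(128,64)],.kids 65 (120,65) [(231,0)],.kids 194 (128,2) [(284,128)],.kids 195 (336,3) [(235,0)],.kids 129 (556,129) [(1020,0)],.kids 67 (72,3) [(239,64)],.kids 259 (460,2) [(237,128),(241,0)],.kids 258 (56,65) [(614,0)],.kids 129 (1088,128) [(245,1)],.kids 131 (3264,3) [(243,0),(247,65)],.kids 260 (233,131) [(249,128),(1646,3)],.kids 259 (666,64) [(204,2)],.kids 195 (1720,0) [(1872,2),(253,128)],.kids 388 (1336,321) [(582,129),(251,0),(255,65)],.kids 325 (470,323) [(494,130),(229,3),(257,2),(734,128),(750,257)],.kids 257 (384,1) [(3904,64)],.kids 257 (1008,1) [(261,64),(1016,65)],.kids 195 (532,0) [(263,2)],.kids 195 (1800,131) [(265,192),(22,1),(2880,131)],.kids 194 (128,2)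 [(498,128)],.kids 3 (120,3) [(269,0)],.kids 194 (498,128) [(2896,2)],.kids 196 (120,3) [(304,128)],.kids 193 (1832,128) [(275,0)],.kids 194 (128,2) [(277,0)],.kids 66 (96,1) [(1832,0)],.kids 4 (336,3) [(281,0)],.kids 195 (128,2) [(283,0)],.kids 258 (112,2) [(285,64)],.kids 195 (120,3) [(283,0)],.kids 260 (104,3) [(289,64)],.kids 195 (279,0) [(287,0),(291,0),(152,2)],.kids 67 (1800,3) [(271,0),(273,0),(293,64)],.kids 259 (279,64) [(1456,2),(1824,2)],.kids 195 (297,128) [(1608,2),(3600,3)],.kids 129 (1088,128) [(2544,0)],.kids 132 (1184,129) [(1468,0)],.kids 129 (1088,128) [(303,0)],.kids 130 (301,0) [(1452,0),(305,0)],.kids 195 (528,128) [(307,1),(498,129)],.kids 64 (1480,0) [(3056,0)],.kids 66 (1832,0) [(304,0)],.kids 0 (1260,0) [(1268,0)],.kids 1 (964,0) [(311,0),(313,0),(315,0)],.kids 196 (281,192) [(3464,0),(317,192)],.kids 195 (1116,3) [(528,128)],.kids 68 (1800,4) [(297,1),(321,0)],.kids 65 (176,0) [(1008,65)],.kids 64 (168,64) [(325,0)],.kids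 129 (1072,0) [(327,0),(3824,65)],.kids 192 (1984,128) [(128,0)],.kids 194 (120,1) [(331,0)],.kids 129 (1072,0) [(333,128)],.kids 130 (0,128) [(1616,1)],.kids 131 (1480,64) [(1306,0)],.kids 195 (1216,128) [(339,0)],.kids 194 (120,1) [(341,0)],.kids 128 (3056,64) [(343,0)],.kids 257 (337,0) [(152,64),(345,64)],.kids 192 (3056,128) [(2896,0)],.kids 321 (329,0) [(335,0),(347,128),(349,128)],.kids 257 (72,0) [(344,1)],.kids 194 (1832,128) [(353,1)],.kids 193 (336,1) [(355,0)],.kids 195 (56,2) [(357,0)],.kids 130 (3640,2) [(359,128),(1652,1)],.kids 194 (1088,192) [(361,0)],.kids 64 (176,0) [(1260,64)],.kids 67 (344,2) [(365,0)],.kids 65 (72,1) [(367,0)],.kids 132 (96,129) [(369,0)],.kids 257 (0,192) [(371,0)],.kids 258 (1166,64) [(373,0),(1444,2)],.kids 194 (304,128) [(375,0)],.kids 193 (315,192) [(351,0),(363,0),(377,64)],.kids 322 (295,129) [(299,1),(309,128),(319,65),(323,128),(379,65)],.kids 195 (1800,131) [(1674,128),(1608,2),(3592,2)],.kids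 196 (916,0) [(3256,129),(3328,129)],.kids 66 (232,2) [(528,0)],.kids 6 (96,3) [(387,0)],.kids 67 (232,3) [(1082,0)],.kids 7 (96,4) [(391,0)],.kids 3 (304,2) [(1832,0)],.kids 65 (0,64) [(395,0)],.kids 129 (16,65) [(397,0)],.kids 67 (312,2) [(1082,0),(399,1),(528,1)],.kids 195 (304,128) [(1952,1)],.kids 196 (96,193) [(403,0)],.kids 129 (3408,1) [(405,0)],.kids 193 (304,192) [(407,0)],.kids 260 (389,193) [(393,192),(401,192),(409,3)],.kids 263 (222,196) [(385,68),(411,0),(190,194)],.kids 66 (304,1) [(1428,0)],.kids 2 (296,2) [(415,0)],.kids 67 (498,2) [(417,0),(624,2)],.kids 3 (336,2) [(1840,0)],.kids 194 (128,1) [(421,0)],.kids 257 (112,1) [(423,64)],.kids 194 (120,2) [(421,0)],.kids 259 (104,2) [(427,64)],.kids 193 (128,1) [(1896,64)],.kids 129 (1088,128) [(431,1)],.kids 196 (120,3) [(433,0)],.kids 195 (152,2) [(425,1),(429,1),(435,0)],.kids 196 (120,3) [(2512,64)],.kids 133 (1184,130) [(439,0)],.kids 194 (128,2) [(441,0)],.kids 259 (152,66)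 [(1824,2),(1456,2),(443,64)],.kids 66 (2368,0) [(2464,2)],.kids 130 (364,128) [(447,0)],.kids 129 (304,128) [(72,1)],.kids 65 (1088,64) [(451,0)],.kids 132 (96,129) [(453,0)],.kids 66 (176,2) [(455,0)],.kids 193 (1088,192) [(457,0)],.kids 260 (120,67) [(459,0)],.kids 258 (128,66) [(461,0)],.kids 259 (152,66) [(429,65),(425,65),(463,0)],.kids 196 (419,128) [(437,66),(445,2),(449,2),(465,2)],.kids 197 (1800,133) [(467,128),(22,3),(790,4)],.kids 194 (472,128) [(1452,1)],.kids 69 (3256,2) [(568,0)],.kids 197 (190,128) [(471,0),(473,129),(1232,128)],.kids 325 (1570,129) [(267,2),(381,1),(383,2),(226,129),(413,64),(469,0),(475,130)],.kids 4 (0,0) [(40,1)],.kids 67 (24,0) [(1352,1)],.kids 4 (272,0) [(479,1),(3324,1),(481,0)],.kids 195 (2780,0) [(483,192)],.kids 195 (485,3) [(2948,64),(1906,128)],.kids 131 (96,128) [(231,2)],.kids 192 (24,192) [(489,0)],.kids 131 (231,2) [(2012,128)],.kids 131 (96,128) [(1364,2)],.kids 259 (24,192) [(495,0)],.kids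 193 (128,64) [(72,1)],.kids 65 (56,65) [(499,0)],.kids 130 (344,65) [(501,0)],.kids 195 (96,192) [(503,1)],.kids 129 (344,0) [(128,64)],.kids 256 (1184,192) [(507,0)],.kids 195 (24,192) [(509,0)],.kids 260 (8,192) [(511,1)],.kids 259 (497,64) [(3444,192),(505,0),(513,64)],.kids 257 (491,64) [(2036,256),(493,64),(515,1)],.kids 68 (296,0) [(3324,65)],.kids 1 (304,0) [(519,1)],.kids 259 (24,192) [(3360,2)],.kids 131 (96,128) [(523,0)],.kids 196 (521,128) [(624,128),(525,1)],.kids 2 (24,2) [(2076,0)],.kids 195 (527,2) [(3468,128),(529,192),(2036,194)],.kids 66 (72,2) [(28,0)],.kids 195 (1072,2) [(1580,64),(231,66)],.kids 196 (624,128) [(497,1),(600,128)],.kids 195 (2036,194) [(537,2),(840,128),(1906,128)],.kids 0 (2160,0) [(2168,0)],.kids 3 (3120,2) [(2012,0)],.kids 3 (96,0) [(352,2)],.kids 131 (24,64) [(545,0)],.kids 66 (528,0) [(547,2)],.kids 65 (304,0) [(1520,64)],.kids 196 (3112,3) [(551,128)],.kids 129 (16,65) [(553,0)],.kids 4 (3120,3)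 [(555,0)],.kids 69 (496,2) [(557,0)],.kids 69 (543,2) [(760,0),(549,0),(559,1)],.kids 68 (1832,64) [(1088,0)],.kids 131 (344,2) [(563,64)],.kids 67 (1184,64) [(565,0)],.kids 195 (1216,128) [(567,0)],.kids 130 (1336,128) [(569,2),(292,64)],.kids 131 (72,3) [(571,0)],.kids 67 (384,2) [(2352,64)],.kids 1 (304,0) [(2160,1)],.kids 193 (1832,128) [(577,0)],.kids 65 (1088,64) [(579,0)],.kids 258 (128,66) [(581,0)],.kids 68 (384,3) [(583,0)],.kids 132 (575,1) [(585,0),(2000,128)],.kids 131 (176,2) [(587,0)],.kids 67 (541,3) [(561,0),(573,0),(589,1)],.kids 1 (3112,0) [(3120,0)],.kids 129 (176,0) [(344,0)],.kids 128 (72,0) [(384,0)],.kids 64 (593,0) [(541,0),(595,0),(597,0)],.kids 259 (507,3) [(3688,0),(599,3)],.kids 133 (517,2) [(531,64),(535,2),(539,64),(591,65),(601,65)],.kids 195 (474,2) [(3468,128),(529,192)],.kids 194 (344,2) [(372,64)],.kids 258 (128,66) [(607,0)],.kids 259 (609,0) [(2108,66),(1448,66)],.kids 384 (128,192) [(228,0)],.kids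 193 (112,192) [(188,0)],.kids 448 (128,256) [(615,0)],.kids 192 (176,128) [(344,0)],.kids 65 (384,1) [(619,0)],.kids 66 (392,65) [(621,0)],.kids 193 (992,128) [(188,0),(623,64),(1072,64)],.kids 195 (176,2) [(2372,64)],.kids 259 (128,67) [(627,0)],.kids 66 (1096,64) [(629,0)],.kids 67 (176,3) [(631,0)],.kids 260 (613,67) [(617,3),(625,3),(633,192)],.kids 452 (678,259) [(611,257),(635,0),(2920,131)],.kids 129 (176,64) [(3848,0)],.kids 128 (168,128) [(639,0)],.kids 193 (231,128) [(641,0),(1456,128)],.kids 192 (1184,128) [(2228,0)],.kids 131 (96,64) [(645,0)],.kids 68 (232,64) [(647,1)],.kids 131 (24,128) [(645,0)],.kids 196 (8,128) [(651,1)],.kids 65 (72,1) [(3704,64)],.kids 131 (96,128) [(655,1)],.kids 259 (24,192) [(657,0)],.kids 195 (496,128) [(649,64),(653,64),(659,0)],.kids 259 (24,192) [(460,1)],.kids 131 (96,128) [(663,0)],.kids 196 (496,129) [(600,128),(624,128),(665,1)],.kids 193 (2636,0) [(604,192)],.kids 194 (2464,130) [(669,0)],.kids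 65 (1088,64) [(541,1)],.kids 258 (128,66) [(673,0)],.kids 66 (176,2) [(675,0)],.kids 132 (677,0) [(2004,129)],.kids 195 (231,130) [(641,2),(679,128)],.kids 259 (643,2) [(661,129),(667,128),(671,64),(681,0)],.kids 323 (2092,322) [(683,2),(2948,192),(1906,256)],.kids 131 (200,2) [(3752,64)],.kids 321 (2108,128) [(3856,0)],.kids 323 (2920,2) [(687,0),(689,66),(88,2)],.kids 325 (2028,66) [(487,128),(603,64),(605,128),(2188,67),(637,1),(685,0),(691,130)],.kids 66 (384,1) [(1928,64)],.kids 64 (176,0) [(695,0)],.kids 129 (3856,0) [(200,0),(697,64)],.kids 67 (24,64) [(2044,0)],.kids 132 (8,64) [(701,1)],.kids 3 (96,0) [(120,3)],.kids 196 (1260,128) [(705,0)],.kids 195 (56,2) [(707,0)],.kids 129 (0,64) [(709,1)],.kids 132 (24,65) [(711,0)],.kids 195 (24,128) [(56,2)],.kids 66 (344,1) [(715,64)],.kids 131 (96,128) [(717,0)],.kids 131 (360,2) [(713,128),(719,1)],.kids 195 (703,129) [(721,0),(1192,192)],.kids 67 (96,0) [(3804,0)],.kids 4 (232,0)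 [(725,1)],.kids 130 (360,1) [(727,128),(1256,1)],.kids 67 (24,64) [(3804,0)],.kids 132 (8,64) [(731,1)],.kids 130 (360,1) [(733,128),(1256,1)],.kids 129 (1248,64) [(344,0)],.kids 129 (176,64) [(1656,0)],.kids 195 (96,192) [(739,2)],.kids 323 (24,256) [(741,0)],.kids 65 (1248,0) [(352,0)],.kids 130 (737,65) [(743,0),(745,129)],.kids 258 (729,64) [(735,64),(496,192),(747,0)],.kids 66 (96,0) [(24,64)],.kids 196 (1480,192) [(1264,3)],.kids 196 (1268,128) [(1800,3)],.kids 323 (751,192) [(753,0),(755,128)],.kids 66 (1184,64) [(384,1)],.kids 129 (759,64) [(200,0)],.kids 68 (1260,0) [(1268,0)],.kids 65 (1248,0) [(56,1)],.kids 128 (72,0) [(64,64)],.kids 64 (932,0) [(767,0)],.kids 67 (384,3) [(769,64)],.kids 68 (392,67) [(771,0)],.kids 131 (176,66) [(773,0)],.kids 130 (765,129) [(775,0)],.kids 323 (763,256) [(777,0)],.kids 195 (757,0) [(761,64),(779,0)],.kids 3 (0,0) [(1184,1)],.kids 258 (2048,66) [(3760,0)],.kids 194 (783,129) [(785,0)],.kids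 261 (699,66) [(723,65),(749,2),(781,2),(787,128)],.kids 387 (678,194) [(789,0),(2156,2),(2920,66)],.kids 1 (2168,1) [(304,0)],.kids 258 (128,66) [(793,0)],.kids 65 (1088,64) [(795,0)],.kids 68 (384,3) [(797,0)],.kids 66 (176,2) [(799,0)],.kids 66 (176,2) [(300,64)],.kids 132 (1704,129) [(801,0),(803,0)],.kids 195 (1072,2) [(805,64),(231,66)],.kids 196 (525,1) [(256,128),(48,192)],.kids 193 (304,192) [(1072,0)],.kids 260 (96,193) [(811,0)],.kids 196 (232,192) [(813,0)],.kids 259 (24,256) [(815,0)],.kids 324 (8,256) [(817,1)],.kids 195 (96,192) [(3512,2)],.kids 195 (96,192) [(3472,1)],.kids 68 (1984,64) [(1160,0)],.kids 68 (232,64) [(825,1)],.kids 67 (384,2) [(827,64)],.kids 65 (176,1) [(829,0)],.kids 194 (821,0) [(1072,1),(823,0),(831,64)],.kids 259 (24,192) [(595,2)],.kids 259 (24,192) [(541,2)],.kids 259 (24,192) [(597,2)],.kids 67 (593,2) [(835,0),(837,0),(839,0)],.kids 259 (496,192) [(819,0),(833,0),(841,64)],.kids 129 (384,1) [(176,0)],.kids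 67 (845,3) [(543,2),(83,0)],.kids 131 (96,128) [(344,2)],.kids 196 (849,1) [(48,192)],.kids 67 (1088,0) [(1984,64)],.kids 67 (1216,1) [(1160,0)],.kids 260 (2424,4) [(855,192)],.kids 69 (96,2) [(857,0)],.kids 5 (232,1) [(859,0)],.kids 68 (24,65) [(861,0)],.kids 67 (1088,0) [(1488,65)],.kids 69 (1160,1) [(865,0)],.kids 132 (853,64) [(863,0),(867,64)],.kids 68 (24,1) [(853,0)],.kids 68 (304,0) [(871,64)],.kids 1 (2160,1) [(873,0)],.kids 65 (541,1) [(869,0),(875,0)],.kids 69 (847,0) [(851,1),(877,2)],.kids 194 (20,128) [(2552,1)],.kids 259 (507,3) [(881,64)],.kids 132 (807,1) [(809,65),(843,2),(879,64),(883,64)],.kids 259 (2092,258) [(885,1),(2468,192),(1906,192)],.kids 195 (2092,194) [(2052,2),(3492,128),(1906,128)],.kids 67 (24,64) [(3328,0)],.kids 132 (8,64) [(891,1)],.kids 68 (0,64) [(893,1)],.kids 129 (336,1) [(895,0)],.kids 131 (336,3) [(3028,64)],.kids 66 (24,66) [(3532,0)],.kids 67 (2036,66) [(897,2),(899,0),(901,0)],.kids 129 (336,64)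 [(352,0)],.kids 256 (1248,0) [(905,0)],.kids 4 (1488,0) [(1480,0)],.kids 3 (1832,0) [(1488,1)],.kids 65 (1984,1) [(911,0)],.kids 3 (1184,2) [(284,0)],.kids 67 (96,1) [(1832,0)],.kids 66 (909,2) [(913,0),(915,0),(917,1)],.kids 130 (1840,64) [(2888,1)],.kids 67 (336,3) [(3028,64)],.kids 131 (907,3) [(919,64),(921,2),(923,0)],.kids 129 (1184,65) [(346,0)],.kids 68 (0,64) [(2760,2)],.kids 5 (2596,1) [(929,0)],.kids 66 (1840,1) [(927,0),(931,1)],.kids 195 (1624,2) [(933,128)],.kids 194 (1832,128) [(1116,2)],.kids 195 (56,2) [(937,0)],.kids 132 (1696,64) [(939,0)],.kids 130 (927,64) [(1108,2)],.kids 195 (2048,3) [(292,128)],.kids 193 (128,0) [(2048,1)],.kids 131 (943,0) [(945,0),(947,2)],.kids 259 (903,64) [(925,64),(935,1),(941,66),(949,65)],.kids 257 (1444,1) [(895,128)],.kids 193 (1184,128) [(2888,1)],.kids 193 (0,128) [(955,1)],.kids 67 (72,3) [(957,64)],.kids 194 (959,1) [(194,128)],.kids 195 (2036,194) [(953,2),(961,0),(1730,129)],.kids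 132 (3640,4) [(951,64),(963,0),(3288,4)],.kids 256 (3112,0) [(3120,0)],.kids 65 (1088,64) [(967,1)],.kids 193 (1832,128) [(969,0)],.kids 194 (128,2) [(971,0)],.kids 66 (176,2) [(973,64)],.kids 196 (1696,128) [(532,64),(975,0)],.kids 259 (3856,130) [(625,2),(977,192)],.kids 451 (678,258) [(979,0),(2156,66),(2920,130)],.kids 325 (2028,66) [(791,66),(887,64),(2188,67),(889,128),(965,128),(981,2)],.kids 196 (0,192) [(3092,0)],.kids 193 (336,1) [(311,128)],.kids 195 (56,2) [(987,0)],.kids 130 (1652,1) [(989,128),(3288,2)],.kids 259 (4068,192) [(985,2),(991,2)],.kids 195 (1088,194) [(993,0)],.kids 196 (1336,194) [(995,0),(254,2),(1696,194)],.kids 193 (1268,128) [(56,0)],.kids 1 (304,0) [(999,1)],.kids 129 (0,64) [(1001,0)],.kids 65 (24,65) [(1003,0)],.kids 132 (0,128) [(938,1)],.kids 131 (3028,128) [(1005,65),(2036,130),(1007,2)],.kids 129 (56,129) [(3572,0)],.kids 195 (3028,192) [(1011,3)],.kids 257 (384,1) [(1788,0)],.kids 193 (120,1) [(1015,0)],.kids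 258 (104,1) [(1017,64)],.kids 257 (176,0) [(1019,64)],.kids 196 (1009,64) [(1013,0),(1021,132)]]
theorem chk3 : checkFrom E3 t3 j3 0 = true := by decide +kernel
end Vale.Agent.P062
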