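import Vale.Agent.P062.Transport
import Vale.Agent.P062.Cert.D0
import Vale.Agent.P062.Cert.D1
import Vale.Agent.P062.Cert.D2
import Vale.Agent.P062.Cert.D3
import Vale.Agent.P062.Cert.D4
import Vale.Agent.P062.Cert.D5
import Vale.Agent.P062.Cert.D6
import Vale.Agent.P062.Cert.D7
import Vale.Agent.P062.Cert.D8
import Vale.Agent.P062.Cert.D9
import Vale.Agent.P062.Cert.D10
import Vale.Agent.P062.Cert.D11
import Vale.Agent.P062.Cert.D12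
import Vale.Agent.P062.Cert.D13
import Vale.Agent.P062.Cert.D14
import Vale.Agent.P062.Cert.D15
import Vale.Agent.P062.Cert.D16
import Vale.Agent.P062.Cert.D17
import Vale.Agent.P062.Cert.D18
import Vale.Agent.P062.Cert.D19
import Vale.Agent.P062.Cert.D20
import Vale.Agent.P062.Cert.D21
import Vale.Agent.P062.Cert.D22
import Vale.Agent.P062.Cert.D23
import Vale.Agent.P062.Cert.D24
import Vale.Agent.P062.Cert.D25
import Vale.Agent.P062.Cert.D26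
import Vale.Agent.P062.Cert.D27
import Vale.Agent.P062.Cert.D28
import Vale.Agent.P062.Cert.D29
import Vale.Agent.P062.Cert.D30
import Vale.Agent.P062.Cert.D31
import Vale.Agent.P062.Cert.D32
import Vale.Agent.P062.Cert.D33
import Vale.Agent.P062.Cert.D34
import Vale.Agent.P062.Cert.D35
import Vale.Agent.P062.Cert.D36
import Vale.Agent.P062.Cert.D37
import Vale.Agent.P062.Cert.D38
import Vale.Agent.P062.Cert.D39
namespace Vale.Agent.P062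
def E39 : Tree := .node (.node (.node (.node (.node (.node (.node (.node (.node (.node (.node (.node (.node (.node (.node (.node (.node (.node (.node (.node (.node (.node (.node (.node (.node (.node (.node (.node (.node (.node (.node (.node (.node (.node (.node (.node (.node (.node t0 t1) t2) t3) t4) t5) t6) t7) t8) t9) t10) t11) t12) t13) t14) t15) t16) t17) t18) t19) t20) t21) t22) t23) t24) t25) t26) t27) t28) t29) t30) t31) t32) t33) t34) t35) t36) t37) t38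
set_option maxRecDepth 1000000 in
def j39 : List Just := [.kids 67 (104453604638720,66) [(236669877878784,3),(4784593567744,0)],.kids 261 (123145302310912,68) [(1,128),(16032,3)],.kids 199 (95657511616512,132) [(2046,0),(3,1),(13056700579840,130)],.kids 326 (128642860449792,4) [(123695058124800,133),(2018,0),(5,128)],.kids 67 (23639499997184,2) [(2310144,0)],.kids 129 (20890720927744,128) [(9,1)],.kids 132 (6597069766656,129) [(11,0)],.kids 193 (74766790688768,192) [(13,0)],.kids 196 (205058918580224,129) [(15,0),(2953216,128)],.kids 131 (20890720927744,64) [(201485505789952,1)],.kids 132 (6597069766656,129) [(19,0)],.kids 196 (83562883710976,129) [(21,0)],.kids 260 (25013889531904,192) [(17,0),(23,65)],.kids 195 (4947802324992,2) [(25,0)],.kids 259 (8246337208320,66) [(27,0)],.kids 324 (43843584,130) [(2050048,256),(145752064,4)],.kids 258 (4947802324992,1)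 [(254536941830144,128)],.kids 321 (12094627905536,64) [(33,0)],.kids 130 (91809220919296,128) [(35,2)],.kids 326 (235295488344064,130) [(31,0),(37,130),(16767552323584,68)],.kids 389 (4423816314880,132) [(29,131),(39,0),(22471268892672,68)],.kids 193 (73667279060992,64) [(6073083756544,0),(5300224,64),(125344325566464,128)],.kids 322 (28587302322176,2) [(3710851743744,64),(125344325566464,65)],.kids 326 (1838,65) [(286,0),(1858,67),(7,129),(41,129),(36800,130),(43,69),(91671781965824,133),(45,196)],.kids 714 (25920,0) [(28480,454),(29376,454),(30144,325),(37056,259),(2464,388),(2592,389),(6496,325),(14448,387),(3284,260),(1618,260),(47,260)],.copy 2 0 64,.copy 2 0 64,.copy 2 0 64,.copy 2 0 64,.copy 2 0 64,.copy 2 0 64,.copy 2 0 64,.copy 2 0 64,.copy 2 0 64,.copy 2 0 64,.copy 2 0 64,.copy 2 0 64,.copy 2 0 64,.copy 2 0 64,.copy 2 0 64,.copy 2 0 64,.copy 2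 0 64,.copy 2 0 64,.copy 2 0 64,.copy 2 0 64,.copy 2 0 64,.copy 2 0 64,.copy 2 0 64,.copy 2 0 64,.copy 2 0 64,.copy 2 0 64,.copy 2 0 64,.copy 2 0 64,.copy 2 0 64,.copy 2 0 64,.copy 2 0 64,.copy 2 0 64,.copy 2 0 64,.copy 2 0 64,.copy 2 0 64,.copy 2 0 64,.copy 2 0 64,.copy 2 0 64,.copy 2 0 64,.copy 2 0 64,.copy 2 0 64,.copy 2 0 64,.copy 2 0 64,.copy 2 0 64,.copy 2 0 64,.copy 2 0 64,.copy 2 0 64,.copy 2 0 64,.copy 2 0 64,.copy 2 0 64,.copy 2 0 64,.copy 2 0 64,.copy 2 0 64,.copy 2 0 64,.copy 2 0 64,.copy 2 0 64,.copy 2 0 64,.copy 2 0 64,.copy 2 0 64,.copy 2 0 64,.copy 2 0 64,.copy 2 0 64,.copy 2 0 64,.copy 2 0 64,.copy 2 0 64,.copy 2 0 64,.copy 2 0 64,.copy 2 0 64,.copy 2 0 64,.copy 2 0 64,.copy 2 0 64,.copy 2 0 64,.copy 2 0 64,.copy 2 0 64,.copy 2 0 64,.copy 2 0 64,.copy 2 0 64,.copy 2 0 64,.copy 2 0 64,.copy 2 0 64,.copy 2 0 64,.copy 2 0 64,.copy 2 0 64,.copy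 2 0 64,.copy 2 0 64,.copy 2 0 64,.copy 2 0 64,.copy 2 0 64,.copy 2 0 64,.copy 2 0 64,.copy 2 0 64,.copy 2 0 64,.copy 2 0 64,.copy 2 0 64,.copy 2 0 64,.copy 2 0 64,.copy 2 0 64,.copy 2 0 64,.copy 2 0 64,.copy 2 0 64,.copy 2 0 64,.copy 2 0 64,.copy 2 0 64,.copy 2 0 64,.copy 2 0 64,.copy 2 0 64,.copy 2 0 64,.copy 2 0 64,.copy 2 0 64,.copy 2 0 64,.copy 2 0 64,.copy 2 0 64,.copy 2 0 64,.copy 2 0 64,.copy 2 0 64,.copy 2 0 64,.copy 2 0 64,.copy 2 0 64,.copy 2 0 64,.copy 2 0 64,.copy 2 0 64,.copy 2 0 64,.copy 2 0 64,.copy 2 0 64,.copy 2 0 64,.copy 2 0 64,.copy 2 0 64,.copy 2 0 64,.copy 2 0 64,.copy 2 0 64,.copy 2 0 64,.copy 2 0 64,.copy 2 0 64,.copy 2 0 64,.copy 2 0 64,.copy 2 0 64,.copy 2 0 64,.copy 2 0 64,.copy 2 0 64,.copy 2 0 64,.copy 2 0 64,.copy 2 0 64,.copy 2 0 64,.copy 2 0 64,.copy 2 0 64,.copy 2 0 64,.copy 2 0 64,.copy 2 0 64,.copy 2 0 64,.copy 2 0 64,.copy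 2 0 64,.copy 2 0 64,.copy 2 0 64,.copy 2 0 64,.copy 2 0 64,.copy 2 0 64,.copy 2 0 64,.copy 2 0 64,.copy 2 0 64,.copy 2 0 64,.copy 2 0 64,.copy 2 0 64,.copy 2 0 64,.copy 2 0 64,.copy 2 0 64,.copy 2 0 64,.copy 2 0 64,.copy 2 0 64,.copy 2 0 64,.copy 2 0 64,.copy 2 0 64,.copy 2 0 64,.copy 2 0 64,.copy 2 0 64,.copy 2 0 64,.copy 2 0 64,.copy 2 0 64,.copy 2 0 64,.copy 2 0 64,.copy 2 0 64,.copy 2 0 64,.copy 2 0 64,.copy 2 0 64,.copy 2 0 64,.copy 2 0 64,.copy 2 0 64,.copy 2 0 64,.copy 2 0 64,.copy 2 0 64,.copy 2 0 64,.copy 2 0 64,.copy 2 0 64,.copy 2 0 64,.copy 2 0 64,.copy 2 0 64,.copy 2 0 64,.copy 2 0 64,.copy 2 0 64,.copy 2 0 64,.copy 2 0 64,.copy 2 0 64,.copy 2 0 64,.copy 2 0 64,.copy 2 0 64,.copy 2 0 64,.copy 2 0 64,.copy 2 0 64,.copy 2 0 64,.copy 2 0 64,.copy 2 0 64,.copy 2 0 64,.copy 2 0 64,.copy 2 0 64,.copy 2 0 64,.copy 2 0 64,.copy 2 0 64,.copy 2 0 64,.copy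 2 0 64,.copy 2 0 64,.copy 2 0 64,.copy 2 0 64,.copy 2 0 64,.copy 2 0 64,.copy 2 0 64,.copy 2 0 64,.copy 2 0 64,.copy 2 0 64,.copy 2 0 64,.copy 2 0 64,.copy 2 0 64,.copy 2 0 64,.copy 2 0 64,.copy 2 0 64,.copy 2 0 64,.copy 2 0 64,.copy 2 0 64,.copy 2 0 64,.copy 2 0 64,.copy 2 0 64,.copy 2 0 64,.copy 2 0 64,.copy 2 0 64,.copy 2 0 64,.copy 2 0 64,.copy 2 0 64,.copy 2 0 64,.copy 2 0 64,.copy 2 0 64,.copy 2 0 64,.copy 2 0 64,.copy 2 0 64,.copy 2 0 64,.copy 2 0 64,.copy 2 0 64,.copy 2 0 64,.copy 2 0 64,.copy 2 0 64,.copy 2 0 64,.copy 2 0 64,.copy 2 0 64,.copy 2 0 64,.copy 2 0 64,.copy 2 0 64,.copy 2 0 64,.copy 2 0 64,.copy 2 0 64,.copy 2 0 64,.copy 2 0 64,.copy 2 0 64,.copy 2 0 64,.copy 2 0 64,.copy 2 0 64,.copy 2 0 64,.copy 2 0 64,.copy 2 0 64,.copy 2 0 64,.copy 2 0 64,.copy 2 0 64,.copy 2 0 64,.copy 2 0 64,.copy 2 0 64,.copy 2 0 64,.copy 2 0 64,.copy 2 0 64,.copy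 2 0 64,.copy 2 0 64,.copy 2 0 64,.copy 2 0 64,.copy 2 0 64,.copy 2 0 64,.copy 2 0 64,.copy 2 0 64,.copy 2 0 64,.copy 2 0 64,.copy 2 0 64,.copy 2 0 64,.copy 2 0 64,.copy 2 0 64,.copy 2 0 64,.copy 2 0 64,.copy 2 0 64,.copy 2 0 64,.copy 2 0 64,.copy 2 0 64,.copy 2 0 64,.copy 2 0 64,.copy 2 0 64,.copy 2 0 64,.copy 2 0 64,.copy 2 0 64,.copy 2 0 64,.copy 2 0 64,.copy 2 0 64,.copy 2 0 64,.copy 2 0 64,.copy 2 0 64,.copy 2 0 64,.copy 2 0 64,.copy 2 0 64,.copy 2 0 64,.copy 2 0 64,.copy 2 0 64,.copy 2 0 64,.copy 2 0 64,.copy 2 0 64,.copy 2 0 64,.copy 2 0 64,.copy 2 0 64,.copy 2 0 64,.copy 2 0 64,.copy 2 0 64,.copy 2 0 64,.copy 2 0 64,.copy 2 0 64,.copy 2 0 64,.copy 2 0 64,.copy 2 0 64,.copy 2 0 64,.copy 2 0 64,.copy 2 0 64,.copy 2 0 64,.copy 2 0 64,.copy 2 0 64,.copy 2 0 64,.copy 2 0 64,.copy 2 0 64,.copy 2 0 64,.copy 2 0 64,.copy 2 0 64,.copy 2 0 64,.copy 2 0 64,.copy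 2 0 64,.copy 2 0 64,.copy 2 0 64,.copy 2 0 64,.copy 2 0 64,.copy 2 0 64,.copy 2 0 64,.copy 2 0 64,.copy 2 0 64,.copy 2 0 64,.copy 2 0 64,.copy 2 0 64,.copy 2 0 64,.copy 2 0 64,.copy 2 0 64,.copy 2 0 64,.copy 2 0 64,.copy 2 0 64,.copy 2 0 64,.copy 2 0 64,.copy 2 0 64,.copy 2 0 64,.copy 2 0 64,.copy 2 0 64,.copy 2 0 64,.copy 2 0 64,.copy 2 0 64,.copy 2 0 64,.copy 2 0 64,.copy 2 0 64,.copy 2 0 64,.copy 2 0 64,.copy 2 0 64,.copy 2 0 64,.copy 2 0 64,.copy 2 0 64,.copy 2 0 64,.copy 2 0 64,.copy 2 0 64,.copy 2 0 64,.copy 2 0 64,.copy 2 0 64,.copy 2 0 64,.copy 2 0 64,.copy 2 0 64,.copy 2 0 64,.copy 2 0 64,.copy 2 0 64,.copy 2 0 64,.copy 2 0 64,.copy 2 0 64,.copy 2 0 64,.copy 2 0 64,.copy 2 0 64,.copy 2 0 64,.copy 2 0 64,.copy 2 0 64,.copy 2 0 64,.copy 2 0 64,.copy 2 0 64,.copy 2 0 64,.copy 2 0 64,.copy 2 0 64,.copy 2 0 64,.copy 2 0 64,.copy 2 0 64,.copy 2 0 64,.copy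 2 0 64,.copy 2 0 64,.copy 2 0 64,.copy 2 0 64,.copy 2 0 64,.copy 2 0 64,.copy 2 0 64,.copy 2 0 64,.copy 2 0 64,.copy 2 0 64,.copy 2 0 64,.copy 2 0 64,.copy 2 0 64,.copy 2 0 64,.copy 2 0 64,.copy 2 0 64,.copy 2 0 64,.copy 2 0 64,.copy 2 0 64,.copy 2 0 64,.copy 2 0 64,.copy 2 0 64,.copy 2 0 64,.copy 2 0 64,.copy 2 0 64,.copy 2 0 64,.copy 2 0 64,.copy 2 0 64,.copy 2 0 64,.copy 2 0 64,.copy 2 0 64,.copy 2 0 64,.copy 2 0 64,.copy 2 0 64,.copy 2 0 64,.copy 2 0 64,.copy 2 0 64,.copy 2 0 64,.copy 2 0 64,.copy 2 0 64,.copy 2 0 64,.copy 2 0 64,.copy 2 0 64,.copy 2 0 64,.copy 2 0 64,.copy 2 0 64,.copy 2 0 64,.copy 2 0 64,.copy 2 0 64,.copy 2 0 64,.copy 2 0 64,.copy 2 0 64,.copy 2 0 64,.copy 2 0 64,.copy 2 0 64,.copy 2 0 64,.copy 2 0 64,.copy 2 0 64,.copy 2 0 64,.copy 2 0 64,.copy 2 0 64,.copy 2 0 64,.copy 2 0 64,.copy 2 0 64,.copy 2 0 64,.copy 2 0 64,.copy 2 0 64,.copy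 2 0 64,.copy 2 0 64]
theorem chk39 : checkFrom E39 t39 j39 0 = true := by decide +kernel
end Vale.Agent.P062
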