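import Vale.Agent.P062.Transport
import Vale.Agent.P062.Cert.D0
import Vale.Agent.P062.Cert.D1
import Vale.Agent.P062.Cert.D2
import Vale.Agent.P062.Cert.D3
import Vale.Agent.P062.Cert.D4
namespace Vale.Agent.P062
def E4 : Tree := .node (.node (.node t0 t1) t2) t3
set_option maxRecDepth 1000000 in
def j4 : List Just := [.kids 197 (3600,133) [(2046,0),(3196,4),(3744,4)],.kids 130 (2368,65) [(1780,0)],.kids 129 (0,64) [(3,0)],.kids 193 (672,1) [(2636,0)],.kids 1 (608,0) [(7,0)],.kids 129 (0,64) [(9,0)],.kids 68 (2380,0) [(5,0),(11,0)],.kids 130 (13,128) [(7280,2)],.kids 194 (4432,193) [(15,0),(2928,193)],.kids 259 (3012,258) [(1,0),(17,66),(2944,258)],.kids 69 (2432,2) [(476,0)],.kids 193 (2904,0) [(996,128)],.kids 196 (2432,129) [(612,0)],.kids 129 (6816,1) [(25,64)],.kids 193 (3664,128) [(1434,1)],.kids 194 (0,193) [(29,0)],.kids 258 (32,194) [(31,0)],.kids 198 (2432,131) [(33,0)],.kids 260 (2432,193) [(492,0)],.kids 259 (21,193) [(23,65),(27,2),(35,64),(37,2)],.kids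 3 (2176,2) [(8136,0)],.kids 194 (2904,0) [(996,128)],.kids 193 (2176,192) [(1970,0)],.kids 65 (2176,64) [(1974,0)],.kids 195 (112,2) [(47,0)],.kids 129 (2176,128) [(5776,1)],.kids 66 (144,2) [(51,64)],.kids 130 (49,128) [(7280,2),(53,0)],.kids 259 (41,192) [(43,66),(45,2),(55,2)],.kids 196 (2672,194) [(39,1),(57,0),(3392,194)],.kids 325 (3140,129) [(1994,64),(2084,3),(452,129),(762,1),(19,0),(938,0),(59,64)],.kids 67 (2368,64) [(1186,2)],.kids 195 (2432,128) [(63,0)],.kids 130 (584,64) [(65,2),(3392,128)],.kids 65 (2176,64) [(2368,1)],.kids 66 (112,2) [(69,0)],.kids 66 (352,2) [(71,64)],.kids 259 (768,3) [(73,0)],.kids 196 (736,3) [(67,128),(75,128)],.kids 195 (144,131) [(77,0)],.kids 259 (7280,131) [(79,0),(7336,128),(6576,131)],.kids 132 (992,65) [(2340,0)],.kids 194 (3920,2) [(1056,128)],.kids 193 (1200,128) [(1248,128),(3920,1)],.kids 193 (3920,1) [(512,128),(96,192)],.kids 197 (83,66) [(85,0),(87,1),(5080,129),(89,1),(114,128)],.kids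 67 (4336,2) [(2432,0)],.kids 64 (352,0) [(93,64)],.kids 66 (768,1) [(95,0)],.kids 65 (240,65) [(97,0)],.kids 258 (768,2) [(2212,64)],.kids 194 (2528,2) [(99,65),(3600,130),(101,128)],.kids 66 (2432,66) [(3424,0)],.kids 195 (2528,3) [(105,192)],.kids 68 (0,64) [(192,1)],.kids 4 (464,0) [(109,0)],.kids 67 (48,64) [(111,0)],.kids 132 (16,64) [(113,1)],.kids 68 (608,0) [(115,1)],.kids 259 (103,1) [(107,0),(117,258)],.kids 323 (4072,322) [(119,0),(326,256),(4184,322)],.kids 129 (256,64) [(768,1)],.kids 67 (2368,64) [(123,1)],.kids 66 (768,1) [(125,0)],.kids 67 (2368,64) [(3148,0)],.kids 64 (352,0) [(129,0)],.kids 66 (768,1) [(131,0)],.kids 257 (408,0) [(127,0),(133,0)],.kids 130 (2672,128) [(135,2)],.kids 131 (5744,67) [(137,0),(3584,67)],.kids 196 (38,132) [(121,0),(139,129),(6776,132)],.kids 131 (4456,2) [(7504,0)],.kids 67 (144,3) [(75,0)],.kids 65 (144,1) [(63,0)],.kids 195 (2432,128) [(147,0)],.kids 66 (144,2) [(4008,64)],.kids 129 (2176,128)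 [(151,1)],.kids 130 (149,2) [(2672,128),(153,0)],.kids 192 (144,128) [(736,0)],.kids 196 (143,129) [(145,128),(155,128),(157,3)],.kids 259 (7280,131) [(4712,65),(159,0),(6576,131)],.kids 195 (48,128) [(4456,2)],.kids 67 (192,64) [(163,0)],.kids 132 (1248,64) [(1200,64),(165,1)],.kids 131 (4072,130) [(167,2),(5848,64),(980,64)],.kids 325 (3868,128) [(81,1),(4376,67),(1206,64),(91,129),(141,0),(1370,0),(161,1),(169,192)],.kids 65 (768,1) [(1292,0)],.kids 66 (784,65) [(173,0)],.kids 257 (784,1) [(4928,64)],.kids 192 (256,0) [(177,0)],.kids 66 (768,1) [(179,64)],.kids 129 (462,64) [(175,0),(181,64)],.kids 257 (784,1) [(4216,64)],.kids 66 (768,1) [(185,64)],.kids 65 (352,0) [(462,0)],.kids 64 (336,64) [(189,0)],.kids 321 (408,64) [(187,64),(191,0)],.kids 260 (3932,1) [(183,67),(3980,128),(4004,64),(4028,2),(4076,0),(193,131)],.kids 131 (12,64) [(4232,2),(3312,2)],.kids 196 (584,192) [(2528,3)],.kids 258 (112,65) [(2720,0)],.kids 65 (144,1) [(5968,64)],.kids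 129 (608,128) [(6528,1)],.kids 130 (144,66) [(205,0)],.kids 194 (824,192) [(207,1)],.kids 197 (2704,194) [(203,66),(209,0)],.kids 195 (6528,67) [(201,130),(211,0)],.kids 65 (2176,64) [(352,1)],.kids 131 (2368,129) [(215,0)],.kids 67 (768,2) [(217,0)],.kids 4 (2368,2) [(568,0)],.kids 4 (48,1) [(2384,0)],.kids 65 (352,1) [(223,64)],.kids 67 (768,2) [(225,0)],.kids 68 (2176,1) [(568,64)],.kids 68 (768,3) [(229,64)],.kids 66 (352,2) [(231,0)],.kids 133 (219,1) [(221,128),(227,1),(233,0)],.kids 131 (235,64) [(3312,2),(4232,2)],.kids 131 (240,67) [(2688,0)],.kids 259 (3888,3) [(239,0)],.kids 67 (189,3) [(241,0),(4068,3)],.kids 260 (197,65) [(199,65),(213,64),(4028,2),(237,65),(243,128)],.kids 326 (4056,67) [(3868,129),(195,2),(245,2),(330,129),(370,128)],.kids 256 (240,64) [(3232,0)],.kids 257 (208,0) [(249,0)],.kids 195 (1064,0) [(251,3)],.kids 195 (3600,131) [(253,192),(44,1),(5760,131)],.kids 66 (2176,64) [(112,2)],.kids 66 (352,2) [(257,64)],.kids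 66 (2176,64) [(1934,1)],.kids 193 (3664,128) [(261,0)],.kids 194 (256,2) [(263,0)],.kids 66 (352,2) [(265,64)],.kids 259 (304,66) [(259,0),(267,0)],.kids 194 (2304,128) [(5792,2)],.kids 128 (2520,128) [(271,0)],.kids 194 (2304,128) [(256,2)],.kids 3 (240,3) [(275,0)],.kids 128 (2520,128) [(277,0)],.kids 67 (3600,3) [(269,0),(273,0),(279,0)],.kids 257 (2536,192) [(5840,0)],.kids 321 (3664,256) [(283,0)],.kids 322 (256,130) [(285,0)],.kids 192 (2520,192) [(287,0)],.kids 323 (251,131) [(289,0)],.kids 129 (240,129) [(400,0)],.kids 195 (3600,131) [(291,64),(273,128),(293,2)],.kids 194 (2176,192) [(15,0)],.kids 129 (7712,0) [(2144,0),(2912,64)],.kids 192 (2536,192) [(5840,0)],.kids 66 (608,0) [(0,64)],.kids 257 (698,128) [(299,0),(301,0),(303,192)],.kids 321 (3608,64) [(400,0),(3648,64)],.kids 66 (0,64) [(996,0)],.kids 66 (608,0) [(996,0)],.kids 193 (303,128) [(307,0),(309,128),(311,128)],.kids 194 (3664,128) [(256,2)],.kids 65 (352,0) [(3892,1)],.kids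 64 (336,64) [(317,0)],.kids 323 (315,128) [(319,2)],.kids 195 (315,0) [(251,3)],.kids 131 (321,0) [(323,128),(5760,67),(3600,67)],.kids 321 (304,128) [(2912,64),(654,0)],.kids 68 (2320,0) [(562,64)],.kids 66 (768,1) [(329,64)],.kids 64 (352,0) [(331,0)],.kids 129 (2144,0) [(832,1),(654,0),(333,64)],.kids 257 (301,0) [(327,64),(335,0),(311,192)],.kids 321 (305,0) [(313,64),(325,0),(337,0)],.kids 193 (0,128) [(50,1)],.kids 129 (0,64) [(2034,0)],.kids 257 (144,64) [(2512,1)],.kids 257 (0,192) [(345,1)],.kids 256 (672,128) [(2512,0)],.kids 322 (341,64) [(343,128),(347,0),(349,2)],.kids 194 (996,128) [(351,0)],.kids 321 (3232,65) [(400,0)],.kids 68 (768,3) [(0,64)],.kids 193 (3664,128) [(2264,1)],.kids 65 (256,64) [(5656,1)],.kids 260 (608,192) [(6816,3)],.kids 257 (3664,192) [(363,0)],.kids 258 (359,64) [(361,2),(365,0)],.kids 321 (3232,65) [(654,0)],.kids 259 (355,2) [(5904,64),(367,0),(369,2)],.kids 195 (2176,128) [(4456,3)],.kids 196 (48,129)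 [(373,0)],.kids 129 (0,128) [(375,0)],.kids 193 (32,129) [(377,0)],.kids 195 (996,129) [(379,64),(750,1)],.kids 195 (192,128) [(5272,0)],.kids 132 (464,128) [(383,1)],.kids 194 (0,192) [(385,1)],.kids 196 (1864,192) [(5272,1)],.kids 196 (622,192) [(387,0),(389,1)],.kids 258 (353,65) [(702,1),(371,65),(381,64),(391,1)],.kids 2 (2368,1) [(2716,0)],.kids 195 (395,192) [(5840,3)],.kids 67 (352,3) [(395,64)],.kids 260 (304,67) [(399,0)],.kids 196 (397,0) [(401,128),(5760,132),(3600,132)],.kids 257 (2520,257) [(403,0)],.kids 68 (1864,64) [(192,1)],.kids 4 (464,0) [(407,0)],.kids 129 (0,64) [(409,1)],.kids 129 (0,64) [(1544,0)],.kids 258 (2340,64) [(4840,0),(413,128)],.kids 196 (1248,128) [(411,128),(415,0)],.kids 194 (2176,192) [(417,0)],.kids 258 (281,129) [(295,1),(297,65),(339,65),(393,64),(405,0),(419,65)],.kids 259 (4096,67) [(2688,0)],.kids 131 (6816,3) [(423,64)],.kids 194 (4096,2) [(3712,0)],.kids 130 (6816,2) [(804,1),(427,128)],.kids 65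 (2176,64) [(1248,0)],.kids 194 (2192,192) [(7360,1),(431,128)],.kids 259 (6528,2) [(1570,0),(4440,2)],.kids 196 (425,0) [(429,1),(433,0),(3952,0),(435,65)],.kids 67 (2432,0) [(6256,0)],.kids 2 (2368,0) [(2176,0)],.kids 67 (688,2) [(441,64)],.kids 132 (3664,128) [(443,0)],.kids 195 (2432,128) [(445,0)],.kids 258 (447,0) [(3584,65)],.kids 195 (2384,192) [(205,0)],.kids 1 (704,0) [(2496,0)],.kids 256 (672,64) [(453,0)],.kids 67 (192,64) [(455,2)],.kids 195 (205,0) [(457,65)],.kids 196 (439,193) [(449,65),(451,0),(459,0)],.kids 65 (208,65) [(1238,0)],.kids 193 (1984,128) [(3488,0),(463,64),(2000,64)],.kids 449 (408,192) [(3264,256),(465,0)],.kids 258 (466,129) [(461,128),(467,1)],.kids 68 (1864,64) [(592,0)],.kids 1 (608,0) [(471,1)],.kids 129 (0,64) [(473,0)],.kids 64 (128,0) [(2560,0)],.kids 257 (672,65) [(477,0)],.kids 67 (192,64) [(479,1)],.kids 66 (6744,0) [(6760,0),(481,65)],.kids 196 (1248,128) [(411,128),(475,128),(483,0)],.kids 193 (2176,192)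 [(485,0)],.kids 322 (2672,320) [(469,1),(487,128),(3392,320)],.kids 389 (3140,193) [(255,66),(421,65),(452,193),(437,130),(826,128),(489,2)],.kids 194 (640,128) [(4120,1),(1248,129)],.kids 68 (16,0) [(223,0)],.kids 195 (5560,0) [(495,192)],.kids 195 (4184,194) [(493,0),(497,3),(4072,194)],.kids 66 (768,1) [(2720,0)],.kids 132 (2640,0) [(2688,0),(501,2)],.kids 257 (936,1) [(256,64)],.kids 256 (224,0) [(505,0)],.kids 66 (768,1) [(507,64)],.kids 259 (2912,2) [(503,0),(509,2)],.kids 131 (144,3) [(511,0)],.kids 69 (688,4) [(380,0)],.kids 68 (4336,3) [(515,0)],.kids 133 (192,130) [(517,0)],.kids 3 (4320,3) [(519,0)],.kids 197 (521,0) [(495,194)],.kids 131 (2560,2) [(4024,128)],.kids 2 (4320,2) [(525,0)],.kids 194 (523,0) [(527,1),(4184,193)],.kids 131 (144,3) [(137,0)],.kids 4 (2976,0) [(3968,0)],.kids 4 (3664,0) [(533,1)],.kids 3 (6240,2) [(535,0)],.kids 3 (4336,3) [(380,0)],.kids 68 (1690,3) [(1680,0),(537,2),(539,0)],.kids 195 (1698,0) [(495,192)],.kids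 195 (192,128) [(688,2)],.kids 132 (464,128) [(545,1)],.kids 194 (640,128) [(547,2)],.kids 195 (543,3) [(549,0),(4184,194),(4072,194)],.kids 131 (688,2) [(4024,128)],.kids 65 (608,0) [(2108,64)],.kids 1 (592,1) [(555,0)],.kids 66 (495,66) [(3040,65),(557,0)],.kids 65 (192,1) [(3040,64)],.kids 132 (688,3) [(561,128)],.kids 196 (2384,192) [(994,1)],.kids 197 (553,2) [(559,128),(563,1),(565,2)],.kids 257 (128,0) [(1014,1)],.kids 129 (0,64) [(569,1)],.kids 1 (608,0) [(571,0)],.kids 66 (1056,0) [(576,64),(656,0),(573,1)],.kids 129 (352,0) [(462,0)],.kids 68 (539,0) [(1584,1),(575,0),(577,3)],.kids 66 (1094,2) [(1200,1),(944,0)],.kids 129 (768,1) [(462,0)],.kids 68 (581,0) [(539,0),(583,3)],.kids 70 (541,1) [(551,0),(567,1),(579,1),(585,1)],.kids 66 (768,1) [(113,0)],.kids 65 (0,64) [(608,0)],.kids 67 (2368,65) [(591,0)],.kids 133 (2500,1) [(589,2),(231,0),(593,65)],.kids 131 (462,2) [(595,0)],.kids 129 (768,1) [(2912,0)],.kids 129 (352,0) [(336,64)],.kids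 321 (936,65) [(601,0)],.kids 131 (256,66) [(200,0)],.kids 67 (603,3) [(539,0),(605,2)],.kids 260 (1186,4) [(599,3),(607,0),(1014,4)],.kids 257 (0,192) [(768,1)],.kids 129 (608,128) [(611,0)],.kids 196 (992,129) [(613,0)],.kids 67 (688,2) [(2488,64)],.kids 259 (352,2) [(4704,192)],.kids 67 (688,2) [(619,0)],.kids 132 (617,1) [(561,128),(621,1)],.kids 69 (2384,65) [(656,0)],.kids 196 (5080,128) [(615,1),(623,0),(625,128)],.kids 68 (2432,1) [(3664,64)],.kids 195 (144,2) [(629,128)],.kids 259 (240,66) [(631,0)],.kids 66 (768,2) [(633,0)],.kids 67 (784,66) [(635,0)],.kids 195 (462,66) [(637,1),(1174,64)],.kids 132 (2368,129) [(215,0)],.kids 258 (672,66) [(641,0)],.kids 194 (256,1) [(643,0)],.kids 257 (224,1) [(645,64)],.kids 130 (768,2) [(647,64)],.kids 259 (672,67) [(88,0)],.kids 259 (936,3) [(651,64)],.kids 259 (1186,3) [(649,1),(653,64)],.kids 133 (597,66) [(1122,65),(609,64),(627,66),(639,2),(655,65)],.kids 192 (672,128) [(2512,0)],.kids 259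 (380,256) [(659,3)],.kids 257 (608,256) [(659,1)],.kids 324 (992,257) [(663,0)],.kids 323 (661,0) [(665,2),(4184,322)],.kids 132 (4320,132) [(667,0)],.kids 67 (192,0) [(6512,0)],.kids 4 (464,0) [(671,1)],.kids 4 (192,1) [(8064,0)],.kids 65 (3040,64) [(673,1),(675,0)],.kids 4 (2960,0) [(6112,0)],.kids 67 (688,2) [(679,64)],.kids 131 (192,128) [(681,0)],.kids 129 (608,128) [(683,1)],.kids 193 (3040,192) [(685,0)],.kids 197 (380,128) [(677,129),(687,1),(2464,128)],.kids 131 (144,3) [(689,0)],.kids 196 (513,129) [(529,129),(531,129),(587,128),(657,64),(669,0),(691,129)],.kids 68 (608,0) [(3708,1)],.kids 129 (695,128) [(6576,1)],.kids 194 (2192,192) [(697,1)],.kids 65 (144,1) [(2912,0)],.kids 130 (6816,2) [(701,1),(7472,128)],.kids 131 (6816,3) [(6912,64),(701,2)],.kids 193 (2176,192) [(3904,1)],.kids 196 (2704,193) [(707,0)],.kids 260 (728,192) [(709,0),(21,192)],.kids 259 (3952,0) [(699,0),(703,1),(705,0),(711,1)],.kids 193 (112,0) [(2232,0)],.kids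 128 (144,0) [(672,0)],.kids 193 (3664,128) [(717,1)],.kids 258 (688,2) [(719,0)],.kids 195 (112,2) [(721,0)],.kids 132 (723,0) [(2928,65)],.kids 66 (352,2) [(728,64)],.kids 195 (3232,3) [(727,0)],.kids 193 (256,1) [(629,64)],.kids 195 (240,2) [(731,0)],.kids 195 (727,0) [(733,65)],.kids 259 (715,67) [(725,65),(729,0),(735,0)],.kids 65 (16,65) [(790,0)],.kids 67 (624,2) [(7208,0),(739,1),(640,1)],.kids 71 (2380,3) [(7016,4),(741,0)],.kids 132 (737,2) [(743,64),(3604,66)],.kids 1 (2320,0) [(2304,0)],.kids 68 (2368,65) [(747,0)],.kids 193 (256,1) [(749,64)],.kids 129 (364,0) [(3088,0),(751,65)],.kids 259 (7136,2) [(2912,2),(509,2),(753,0)],.kids 67 (144,3) [(755,0)],.kids 133 (7280,5) [(745,64),(757,2),(6576,5)],.kids 326 (4056,67) [(499,129),(693,1),(4376,68),(713,130),(1274,2),(759,128)],.kids 129 (768,65) [(3888,0)],.kids 130 (784,129) [(763,0)],.kids 130 (0,65) [(4528,0)],.kids 68 (2176,1) [(767,0)],.kids 69 (48,2) [(769,0)],.kids 5 (2368,2)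 [(771,0)],.kids 68 (768,3) [(773,64)],.kids 258 (256,66) [(775,0)],.kids 66 (688,1) [(1224,64)],.kids 130 (768,66) [(779,0)],.kids 131 (784,130) [(781,0)],.kids 195 (765,2) [(1604,128),(777,128),(783,1)],.kids 387 (112,194) [(785,0)],.kids 195 (7280,67) [(4808,64),(787,1),(6576,67)],.kids 262 (4056,3) [(3868,65),(789,2),(4376,4),(330,65),(370,64)],.kids 260 (3212,131) [(652,128),(3292,3)],.kids 196 (7880,128) [(3904,1)],.kids 193 (2176,192) [(795,0)],.kids 323 (3392,321) [(793,0),(797,129),(2672,321)],.kids 388 (3140,192) [(532,129),(2084,66),(452,192),(762,64),(799,0)],.kids 68 (111,1) [(1360,0),(6648,65)],.kids 129 (144,1) [(5776,64)],.kids 257 (0,192) [(805,1)],.kids 193 (3040,192) [(807,0)],.kids 258 (6408,64) [(7136,1)],.kids 130 (144,2) [(811,0)],.kids 193 (0,128) [(246,0)],.kids 196 (48,129) [(815,0)],.kids 257 (936,1) [(5568,64)],.kids 66 (352,2) [(819,64)],.kids 67 (688,2) [(821,0)],.kids 259 (48,192) [(823,0)],.kids 131 (192,128)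 [(825,0)],.kids 257 (936,1) [(4144,0)],.kids 64 (352,0) [(829,64)],.kids 66 (768,1) [(831,0)],.kids 129 (256,64) [(833,0)],.kids 257 (0,192) [(835,1)],.kids 258 (817,64) [(827,1),(837,0)],.kids 194 (3040,193) [(1136,128),(839,1)],.kids 66 (352,2) [(1586,0)],.kids 68 (768,3) [(843,0)],.kids 67 (688,2) [(845,0)],.kids 259 (4704,192) [(847,0)],.kids 1 (256,0) [(240,1)],.kids 129 (352,0) [(851,0)],.kids 66 (617,0) [(853,1)],.kids 2 (2320,1) [(2176,0)],.kids 68 (3664,64) [(2584,0)],.kids 67 (688,2) [(859,64)],.kids 131 (6256,128) [(849,0),(855,0),(861,0)],.kids 194 (3040,193) [(521,0)],.kids 67 (809,1) [(813,1),(841,0),(863,2),(865,0)],.kids 66 (1136,0) [(992,2),(3040,65)],.kids 66 (464,2) [(3396,64)],.kids 6 (192,3) [(871,0)],.kids 70 (2384,66) [(873,0),(111,3)],.kids 69 (2384,65) [(1406,2),(576,64)],.kids 66 (1136,0) [(3040,65),(96,65)],.kids 197 (803,130) [(867,0),(869,128),(6632,2),(875,128),(877,129),(879,128)],.kids 196 (4184,195) [(7272,0),(4104,3),(4072,195)],.kids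 132 (48,65) [(1974,0)],.kids 129 (0,64) [(885,0)],.kids 68 (887,0) [(444,1)],.kids 129 (0,64) [(7608,1)],.kids 69 (891,1) [(3532,0),(444,2)],.kids 4 (3664,0) [(5144,1)],.kids 129 (0,64) [(895,0)],.kids 65 (48,65) [(897,0)],.kids 68 (2320,0) [(2304,0)],.kids 68 (2176,0) [(901,1)],.kids 66 (3460,0) [(889,1),(893,0),(899,0),(903,65)],.kids 196 (112,3) [(905,0)],.kids 131 (6576,3) [(907,128),(4808,0),(7280,3)],.kids 196 (192,129) [(4840,0)],.kids 132 (464,128) [(911,0)],.kids 196 (0,192) [(913,1)],.kids 193 (2176,192) [(915,0)],.kids 193 (2176,192) [(7144,1)],.kids 130 (919,0) [(6576,2),(49,128)],.kids 259 (41,192) [(43,66),(917,2),(921,2)],.kids 68 (608,0) [(3792,1)],.kids 67 (2176,64) [(925,0)],.kids 132 (2432,65) [(927,0)],.kids 129 (7280,1) [(929,128)],.kids 262 (2672,194) [(923,0),(508,2),(931,3)],.kids 326 (4056,67) [(4200,129),(881,130),(4376,68),(789,66),(883,128),(909,130),(933,129),(1962,3)],.kids 260 (3460,194) [(7592,2),(362,192)],.kids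 258 (4528,64) [(796,1)],.kids 66 (144,2) [(939,0)],.kids 197 (7280,69) [(937,0),(941,67),(6576,69)],.kids 262 (3868,65) [(4056,3),(7384,66),(4376,4),(1206,1),(91,66),(943,0)],.kids 193 (688,0) [(5776,64)],.kids 192 (688,0) [(2496,64)],.kids 65 (704,64) [(949,0)],.kids 193 (1814,128) [(947,64),(659,0),(951,0)],.kids 260 (1486,1) [(2384,256)],.kids 65 (112,1) [(5776,0)],.kids 67 (192,64) [(957,1)],.kids 195 (48,128) [(959,0)],.kids 132 (2384,128) [(961,1)],.kids 259 (5704,66) [(955,0),(963,128),(565,64)],.kids 193 (256,0) [(4216,0)],.kids 256 (224,0) [(967,64)],.kids 257 (784,1) [(969,64)],.kids 65 (768,1) [(462,0)],.kids 193 (132,1) [(971,128),(973,64)],.kids 66 (48,66) [(944,0)],.kids 68 (2176,0) [(2960,64)],.kids 68 (768,3) [(3664,64)],.kids 67 (256,66) [(981,0)],.kids 259 (2384,256) [(983,1)],.kids 195 (2536,128) [(240,3)],.kids 260 (208,3) [(987,64)],.kids 3 (192,0) [(989,0)],.kids 64 (48,64) [(991,0)],.kids 67 (192,1) [(2384,64)],.kids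 260 (979,129) [(985,0),(993,65),(995,192)],.kids 324 (995,256) [(5840,3)],.kids 195 (256,3) [(2384,192)],.kids 260 (408,3) [(1001,64)],.kids 196 (3664,192) [(2528,3)],.kids 196 (6256,193) [(1003,128),(1005,1)],.kids 196 (240,3) [(2536,128)],.kids 259 (352,2) [(1009,64)],.kids 195 (2960,128) [(1011,0)],.kids 132 (2176,64) [(1013,0)],.kids 325 (977,192) [(997,129),(999,65),(1007,1),(1015,194)],.kids 196 (256,3) [(2536,128)],.kids 259 (224,3) [(1019,64)],.kids 4 (192,1) [(1021,0)]]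
theorem chk4 : checkFrom E4 t4 j4 0 = true := by decide +kernel
end Vale.Agent.P062
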