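import Vale.Agent.P062.Transport
import Vale.Agent.P062.Cert.D0
import Vale.Agent.P062.Cert.D1
import Vale.Agent.P062.Cert.D2
import Vale.Agent.P062.Cert.D3
import Vale.Agent.P062.Cert.D4
import Vale.Agent.P062.Cert.D5
namespace Vale.Agent.P062
def E5 : Tree := .node (.node (.node (.node t0 t1) t2) t3) t4
set_option maxRecDepth 1000000 in
def j5 : List Just := [.kids 324 (2046,128) [(352,3),(832,1)],.kids 260 (96,193) [(1,0)],.kids 196 (2400,128) [(2496,128),(3,0)],.kids 195 (5920,128) [(11136,2)],.kids 131 (4352,64) [(7,0)],.kids 132 (96,65) [(9,0)],.kids 68 (1184,0) [(1984,1)],.kids 1 (1216,0) [(13,1)],.kids 65 (96,65) [(1248,0)],.kids 132 (4352,64) [(7,0)],.kids 260 (17,128) [(19,129),(14624,1)],.kids 197 (1312,128) [(11,129),(15,129),(21,0)],.kids 3 (1216,2) [(1992,0)],.kids 65 (0,64) [(25,0)],.kids 129 (64,65) [(27,0)],.kids 67 (1248,2) [(2808,0),(29,1),(2112,1)],.kids 4 (4864,3) [(9456,0)],.kids 3 (1216,2) [(33,0)],.kids 70 (1824,2)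 [(35,0),(2496,2)],.kids 68 (31,0) [(1556,1),(37,2),(2496,3)],.kids 132 (32,64) [(2952,0)],.kids 257 (1536,1) [(704,0)],.kids 195 (5920,128) [(43,2)],.kids 131 (4352,64) [(45,0)],.kids 132 (96,65) [(47,0)],.kids 69 (1984,2) [(41,2),(49,1),(37,0)],.kids 194 (1888,128) [(3664,1),(2400,129)],.kids 263 (2016,195) [(2034,2),(5,68),(23,67),(39,192),(3168,195),(51,195),(53,66)],.kids 195 (96,192) [(704,2)],.kids 260 (32,192) [(57,1)],.kids 195 (928,128) [(59,0)],.kids 194 (480,1) [(61,0)],.kids 129 (512,0) [(63,0)],.kids 132 (96,65) [(65,0)],.kids 1 (1216,0) [(67,0)],.kids 129 (512,0) [(416,1)],.kids 258 (4864,192) [(71,0)],.kids 1 (1216,0) [(73,0)],.kids 195 (5040,192) [(12480,3)],.kids 4 (384,1) [(77,0)],.kids 260 (5072,192) [(79,0)],.kids 256 (12448,0) [(1358,192)],.kids 195 (12480,3) [(83,0)],.kids 1 (1216,0) [(85,0)],.kids 4 (384,1) [(87,0)],.kids 3 (96,1) [(4768,0)],.kids 196 (12480,4) [(91,192)],.kids 5 (384,2) [(93,0)],.kids 256 (384,192)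 [(12448,0)],.kids 1 (1216,0) [(97,0)],.kids 195 (12480,3) [(99,0)],.kids 258 (4864,192) [(101,0)],.kids 4 (384,1) [(103,0)],.kids 260 (75,1) [(81,1),(89,1),(95,0),(105,1)],.kids 69 (1984,2) [(69,1),(107,0)],.kids 195 (384,192) [(1966,0)],.kids 259 (4768,256) [(111,1)],.kids 131 (96,64) [(1982,0)],.kids 65 (3172,0) [(115,1)],.kids 257 (3132,192) [(2028,1)],.kids 259 (0,256) [(111,1)],.kids 321 (2028,65) [(121,0)],.kids 260 (113,0) [(117,64),(119,64),(123,0)],.kids 3 (7328,0) [(8016,1)],.kids 195 (1536,3) [(1978,64)],.kids 67 (7328,64) [(129,0)],.kids 192 (1344,64) [(1376,0)],.kids 195 (96,128) [(133,2)],.kids 131 (384,64) [(135,0)],.kids 68 (127,64) [(131,0),(137,1)],.kids 260 (139,1) [(119,64),(123,0)],.kids 65 (1984,1) [(3172,0)],.kids 65 (1216,0) [(8672,1)],.kids 193 (512,64) [(704,0)],.kids 65 (4864,64) [(147,0)],.kids 3 (4352,0) [(4864,2)],.kids 1 (4608,1) [(151,0)],.kids 66 (145,65) [(149,2),(153,64)],.kids 133 (2016,65) [(109,65),(125,1),(141,1),(143,65),(155,0)],.kids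 67 (2172,2) [(3360,0),(1078,0),(3380,3)],.kids 257 (224,128) [(11648,0)],.kids 129 (12480,128) [(161,1)],.kids 195 (5920,192) [(9376,3)],.kids 196 (96,129) [(165,0)],.kids 193 (512,1) [(3132,128)],.kids 130 (1536,2) [(169,64)],.kids 324 (163,2) [(167,65),(171,128)],.kids 1 (12480,0) [(3564,1)],.kids 132 (32,64) [(175,0)],.kids 131 (384,128) [(698,2)],.kids 324 (179,2) [(171,128)],.kids 197 (1984,130) [(173,0),(177,130),(181,0)],.kids 3 (12480,2) [(1992,0)],.kids 66 (1888,0) [(185,1),(3172,1)],.kids 129 (12480,128) [(14560,1)],.kids 259 (8144,192) [(189,1)],.kids 259 (12480,3) [(3052,192)],.kids 4 (384,1) [(193,0)],.kids 66 (384,0) [(4864,0)],.kids 192 (512,0) [(197,128)],.kids 259 (12480,3) [(199,64)],.kids 129 (1536,1) [(201,0)],.kids 4 (384,1) [(203,0)],.kids 196 (171,0) [(195,1),(205,1)],.kids 195 (5920,128) [(224,2)],.kids 131 (4352,64) [(209,0)],.kids 132 (96,65) [(211,0)],.kids 2 (12480,1) [(213,0)],.kids 69 (1984,2) [(207,0),(215,1)],.kids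 261 (2034,0) [(143,193),(183,65),(187,192),(191,66),(217,193)],.kids 261 (1166,196) [(55,0),(157,130),(159,193),(219,2)],.kids 131 (1344,66) [(1282,0)],.kids 66 (1376,1) [(223,0)],.kids 257 (1568,1) [(6928,128)],.kids 320 (9696,64) [(227,0)],.kids 130 (8912,65) [(225,0),(229,65)],.kids 129 (512,0) [(1344,1)],.kids 129 (512,0) [(224,0)],.kids 197 (480,4) [(2112,128)],.kids 132 (512,3) [(237,0)],.kids 259 (8672,2) [(8144,192)],.kids 197 (235,4) [(3040,128),(239,1),(241,2)],.kids 259 (96,192) [(8640,2)],.kids 196 (0,192) [(245,1)],.kids 257 (12448,1) [(247,0)],.kids 129 (512,0) [(480,1)],.kids 195 (241,0) [(249,0),(251,1)],.kids 128 (1344,0) [(480,0)],.kids 193 (235,0) [(255,0),(8704,0),(3868,0)],.kids 196 (233,3) [(243,0),(253,2),(257,4)],.kids 65 (1344,64) [(1408,0)],.kids 68 (64,64) [(4864,1)],.kids 128 (1344,0) [(263,0)],.kids 195 (1872,2) [(265,128)],.kids 193 (7328,128) [(267,1)],.kids 193 (512,1) [(3868,0)],.kids 194 (224,1) [(271,0)],.kids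 65 (7328,0) [(273,1)],.kids 259 (261,3) [(269,0),(275,128)],.kids 131 (4736,128) [(1922,0)],.kids 132 (5408,129) [(277,0),(279,2)],.kids 130 (1344,2) [(3708,0)],.kids 129 (1344,1) [(3716,0)],.kids 5 (10384,1) [(285,0)],.kids 66 (7360,1) [(283,0),(287,1)],.kids 198 (480,5) [(1668,128)],.kids 196 (512,4) [(291,0)],.kids 197 (224,4) [(293,0)],.kids 69 (4864,2) [(2048,64)],.kids 65 (7328,0) [(297,0)],.kids 196 (1872,3) [(299,128)],.kids 65 (1408,0) [(224,1)],.kids 67 (384,64) [(303,1)],.kids 195 (96,128) [(305,0)],.kids 131 (4736,128) [(307,0)],.kids 132 (5408,129) [(301,0),(309,2)],.kids 261 (402,67) [(295,128),(311,2)],.kids 194 (512,65) [(5440,0)],.kids 194 (224,65) [(5440,0)],.kids 261 (3040,192) [(315,3),(317,3)],.kids 260 (233,67) [(319,0),(253,66),(257,68)],.kids 323 (259,128) [(281,2),(289,129),(313,0),(321,64)],.kids 192 (1536,0) [(1344,64)],.kids 64 (4864,64) [(4736,0)],.kids 129 (1344,1) [(327,64)],.kids 65 (329,0) [(7360,0)],.kids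 66 (4736,2) [(5312,64)],.kids 131 (1344,3) [(333,64)],.kids 67 (7360,2) [(335,0)],.kids 259 (12480,3) [(12112,192)],.kids 67 (7360,2) [(339,0)],.kids 195 (3040,128) [(331,2),(337,0),(3328,128),(341,0)],.kids 129 (4992,1) [(1216,128)],.kids 193 (0,192) [(345,0)],.kids 257 (64,193) [(347,0)],.kids 197 (1984,130) [(349,0)],.kids 259 (8640,2) [(8144,192)],.kids 196 (251,2) [(351,0),(353,1)],.kids 195 (329,2) [(241,2),(335,0)],.kids 67 (7360,2) [(357,0)],.kids 197 (235,4) [(343,0),(355,2),(359,0)],.kids 192 (512,0) [(245,0)],.kids 195 (4864,128) [(363,0)],.kids 194 (480,1) [(365,0)],.kids 130 (1168,64) [(367,2)],.kids 195 (1536,3) [(369,64)],.kids 260 (325,4) [(361,64),(371,1)],.kids 66 (1376,1) [(430,0)],.kids 132 (4736,129) [(375,0)],.kids 130 (1344,66) [(377,0)],.kids 131 (5120,2) [(384,128)],.kids 259 (96,192) [(381,0)],.kids 195 (4864,128) [(383,0)],.kids 196 (64,192) [(385,2)],.kids 257 (0,192) [(387,1)],.kids 193 (7328,128) [(389,0)],.kids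 130 (4736,129) [(375,0)],.kids 195 (224,2) [(197,128)],.kids 132 (10384,128) [(395,1)],.kids 132 (393,0) [(397,64)],.kids 258 (9456,192) [(391,64),(399,2)],.kids 131 (5408,128) [(11552,2)],.kids 133 (379,2) [(401,0),(403,66)],.kids 193 (7328,128) [(11216,0)],.kids 131 (224,2) [(4976,64)],.kids 2 (12448,1) [(409,0)],.kids 195 (4736,192) [(411,0)],.kids 67 (2380,3) [(3168,1),(413,2),(1078,0)],.kids 195 (4736,192) [(3380,2)],.kids 260 (417,1) [(297,192)],.kids 196 (4736,193) [(1078,0)],.kids 260 (297,192) [(421,0)],.kids 195 (4736,192) [(2172,1)],.kids 260 (297,192) [(425,1)],.kids 69 (419,0) [(423,0),(427,0),(2016,1)],.kids 67 (4352,0) [(395,1)],.kids 65 (704,1) [(431,64)],.kids 196 (10384,192) [(433,0)],.kids 67 (384,0) [(1344,2)],.kids 4 (928,0) [(437,1)],.kids 67 (96,64) [(439,0)],.kids 196 (10384,192) [(441,1)],.kids 65 (704,1) [(443,0)],.kids 66 (4736,64) [(395,0)],.kids 132 (10384,128) [(447,1)],.kids 132 (434,0) [(435,0),(445,0),(449,64)],.kids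 130 (512,65) [(451,0)],.kids 68 (2028,3) [(415,0),(429,1),(453,2)],.kids 258 (7360,193) [(407,64),(455,0)],.kids 260 (231,3) [(323,64),(373,128),(405,1),(457,1)],.kids 262 (1906,133) [(1930,131),(1950,132),(221,0),(459,192)],.kids 130 (6608,1) [(2908,128),(5776,1)],.kids 130 (6608,1) [(2932,128),(5776,1)],.kids 130 (1988,64) [(2972,0),(11408,65),(1922,128)],.kids 259 (1984,192) [(463,64),(465,64),(467,0)],.kids 131 (12512,128) [(5776,2)],.kids 131 (6608,2) [(8048,128)],.kids 65 (384,1) [(192,64)],.kids 132 (475,128) [(6608,3)],.kids 260 (469,2) [(471,65),(473,65),(1754,192),(477,64)],.kids 192 (1376,0) [(11552,64)],.kids 193 (1536,128) [(11312,0)],.kids 65 (704,0) [(483,1)],.kids 64 (672,64) [(485,0)],.kids 193 (1600,129) [(7768,0),(487,64),(4288,64)],.kids 257 (448,256) [(489,0)],.kids 257 (512,64) [(15296,1)],.kids 449 (481,256) [(491,0),(493,256)],.kids 195 (512,66) [(2428,0)],.kids 65 (480,65) [(4720,0)],.kids 65 (704,0) [(96,64)],.kids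 64 (672,64) [(501,0)],.kids 321 (0,256) [(503,0)],.kids 193 (0,128) [(4076,0)],.kids 129 (499,0) [(505,0),(507,128)],.kids 193 (1216,192) [(509,0)],.kids 260 (192,256) [(2400,192),(511,0)],.kids 257 (0,192) [(11312,1)],.kids 2 (1568,1) [(5432,0)],.kids 257 (0,192) [(517,0)],.kids 2 (0,0) [(96,1)],.kids 1 (480,1) [(521,0)],.kids 65 (515,0) [(519,0),(523,0),(12240,0)],.kids 129 (1216,128) [(525,0)],.kids 194 (1152,192) [(1312,128),(527,1)],.kids 68 (1184,0) [(1024,0)],.kids 1 (1216,0) [(531,1)],.kids 68 (96,65) [(1024,0)],.kids 132 (32,64) [(535,0)],.kids 69 (1312,0) [(533,1),(537,2),(2400,1)],.kids 68 (4352,0) [(4736,3)],.kids 67 (0,2) [(541,0)],.kids 70 (384,3) [(543,64)],.kids 6 (928,2) [(545,0)],.kids 69 (1088,65) [(547,0),(1984,2)],.kids 68 (64,64) [(1984,1)],.kids 129 (0,64) [(551,1)],.kids 70 (1152,65) [(549,2),(553,2),(4280,64)],.kids 69 (2112,0) [(553,1),(15,1)],.kids 259 (513,2) [(529,64),(3328,192),(539,193),(555,192),(557,193),(2592,193)],.kids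 259 (8640,2) [(1806,192)],.kids 259 (12448,3) [(12112,192)],.kids 197 (251,3) [(3200,129),(561,2),(563,0)],.kids 194 (1376,2) [(1456,192)],.kids 195 (480,67) [(567,0)],.kids 67 (1872,66) [(7624,0)],.kids 258 (0,257) [(571,0)],.kids 322 (64,258) [(573,0)],.kids 259 (1216,194) [(575,0)],.kids 195 (577,0) [(13,195)],.kids 259 (8640,2) [(8368,192)],.kids 262 (569,2) [(579,0),(581,67)],.kids 66 (384,1) [(4352,64)],.kids 195 (1376,3) [(585,128)],.kids 196 (512,67) [(587,0)],.kids 67 (96,66) [(2112,0)],.kids 195 (4896,192) [(76,2)],.kids 256 (64,192) [(448,0)],.kids 193 (480,1) [(595,0)],.kids 257 (597,192) [(6560,0)],.kids 65 (480,1) [(448,0)],.kids 256 (64,192) [(601,0)],.kids 193 (1216,128) [(603,0)],.kids 387 (4704,320) [(593,128),(599,1),(605,193)],.kids 3 (4640,1) [(1848,0)],.kids 129 (0,64) [(480,1)],.kids 65 (1216,0) [(611,0)],.kids 1 (1184,1) [(613,0)],.kids 67 (96,66) [(615,0)],.kids 66 (96,65) [(3172,0)],.kids 259 (4352,192) [(619,1)],.kids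 195 (4640,193) [(621,0)],.kids 193 (609,192) [(617,0),(623,0)],.kids 257 (0,192) [(1472,1)],.kids 194 (96,193) [(627,0)],.kids 194 (591,128) [(607,0),(625,128),(629,1)],.kids 129 (1216,128) [(11312,1)],.kids 257 (0,192) [(633,0)],.kids 194 (384,129) [(635,0)],.kids 195 (1376,3) [(637,0)],.kids 196 (512,67) [(639,0)],.kids 67 (448,66) [(5896,0)],.kids 259 (512,130) [(643,0)],.kids 130 (591,64) [(641,65),(645,2)],.kids 259 (12448,3) [(6080,192)],.kids 194 (1216,128) [(649,0)],.kids 193 (0,192) [(1872,1)],.kids 257 (64,193) [(653,0)],.kids 195 (1216,129) [(655,0)],.kids 129 (0,64) [(1536,1)],.kids 66 (96,65) [(659,0)],.kids 65 (1216,0) [(8640,1)],.kids 1 (1184,1) [(663,0)],.kids 193 (5072,193) [(665,0)],.kids 67 (96,66) [(667,0)],.kids 66 (657,64) [(661,1),(669,0)],.kids 194 (480,1) [(7328,128)],.kids 259 (12448,3) [(673,64)],.kids 257 (675,0) [(7296,0),(5824,0)],.kids 65 (96,64) [(1536,0)],.kids 129 (800,0) [(679,65)],.kids 257 (1568,1) [(7296,0)],.kids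 64 (96,64) [(1536,0)],.kids 66 (683,64) [(685,1)],.kids 193 (5920,128) [(512,0)],.kids 256 (448,0) [(689,64)],.kids 259 (12448,3) [(691,0)],.kids 1 (521,0) [(693,0)],.kids 193 (677,128) [(681,0),(687,64),(695,128)],.kids 256 (4992,0) [(1408,0)],.kids 256 (1376,0) [(699,64)],.kids 192 (5920,128) [(701,0)],.kids 259 (12448,3) [(703,64)],.kids 64 (704,0) [(5952,0)],.kids 2 (1568,1) [(707,0)],.kids 196 (480,3) [(4928,128)],.kids 261 (12448,5) [(711,64)],.kids 67 (709,2) [(713,0)],.kids 192 (12224,128) [(701,0)],.kids 259 (12448,3) [(1244,192)],.kids 259 (705,2) [(715,0),(717,66),(719,2)],.kids 192 (5920,128) [(11584,0)],.kids 259 (12448,3) [(723,64)],.kids 321 (719,64) [(725,64),(602,0)],.kids 323 (651,130) [(671,65),(697,2),(721,128),(727,66)],.kids 67 (1216,1) [(1152,64)],.kids 195 (1376,3) [(3856,192)],.kids 196 (512,67) [(733,0)],.kids 195 (1376,3) [(1244,192)],.kids 196 (512,67) [(737,0)],.kids 196 (1376,3) [(1244,192)],.kids 196 (1376,3)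 [(3856,192)],.kids 196 (1376,3) [(7328,192)],.kids 258 (1216,192) [(745,0)],.kids 195 (1260,192) [(741,0),(743,0),(747,0)],.kids 193 (512,64) [(1376,0)],.kids 195 (5040,192) [(751,3)],.kids 192 (5072,192) [(753,0)],.kids 258 (731,192) [(735,1),(739,1),(749,1),(755,1)],.kids 323 (589,130) [(631,1),(647,65),(729,64),(757,129)],.kids 195 (1376,3) [(4384,192)],.kids 196 (512,67) [(761,0)],.kids 195 (480,3) [(760,128)],.kids 259 (4024,131) [(3960,2),(765,192)],.kids 67 (4352,64) [(1920,1)],.kids 66 (1816,64) [(769,1),(1800,66),(1864,64)],.kids 195 (8288,3) [(760,128)],.kids 260 (12448,4) [(773,0)],.kids 128 (256,64) [(4008,0)],.kids 321 (12448,65) [(777,0)],.kids 323 (763,129) [(767,0),(771,256),(775,192),(779,131)],.kids 67 (448,66) [(1962,0)],.kids 259 (512,130) [(783,0)],.kids 195 (7624,128) [(781,0),(785,66)],.kids 390 (497,131) [(559,129),(565,194),(583,129),(759,0),(787,1)],.kids 193 (416,1) [(576,0)],.kids 129 (0,64) [(791,0)],.kids 1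 (1216,0) [(793,0)],.kids 68 (636,1) [(795,0)],.kids 67 (7624,0) [(797,2),(11696,0),(8144,66)],.kids 65 (416,65) [(924,0)],.kids 258 (512,66) [(567,0)],.kids 259 (480,67) [(803,0)],.kids 132 (4608,64) [(1408,3)],.kids 131 (224,66) [(807,0)],.kids 65 (7328,0) [(809,1)],.kids 260 (256,3) [(811,0)],.kids 259 (801,2) [(805,64),(813,128),(4024,67)],.kids 195 (4736,130) [(815,0)],.kids 65 (1216,0) [(224,1)],.kids 1 (1184,1) [(819,0)],.kids 322 (821,128) [(1472,2),(1696,1)],.kids 194 (0,193) [(823,0)],.kids 129 (1216,128) [(15344,1)],.kids 193 (0,192) [(827,0)],.kids 320 (1894,64) [(1318,0),(3628,128),(1902,0)],.kids 257 (416,65) [(924,0)],.kids 193 (4736,128) [(833,0)],.kids 131 (831,2) [(760,128),(835,66)],.kids 258 (12464,192) [(817,64),(825,0),(829,1),(837,0)],.kids 129 (480,65) [(3968,0)],.kids 321 (0,256) [(841,0)],.kids 193 (1216,192) [(843,0)],.kids 260 (192,256) [(2400,192),(845,0)],.kids 65 (12448,0) [(4992,0)],.kids 129 (1216,128) [(849,1)],.kids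 257 (0,192) [(851,0)],.kids 194 (853,1) [(1152,192),(1312,128)],.kids 129 (480,65) [(1376,0)],.kids 193 (4864,192) [(857,0)],.kids 193 (1216,192) [(859,1)],.kids 257 (32,257) [(861,0)],.kids 128 (480,64) [(288,0)],.kids 193 (4864,192) [(865,0)],.kids 193 (1216,192) [(867,1)],.kids 260 (96,257) [(869,0)],.kids 67 (4352,0) [(8864,1)],.kids 325 (863,0) [(871,1),(873,257),(2984,257)],.kids 68 (1184,0) [(222,1)],.kids 129 (1872,0) [(877,129)],.kids 259 (96,192) [(879,0)],.kids 193 (0,192) [(881,1)],.kids 257 (64,193) [(883,0)],.kids 257 (8288,0) [(64,193)],.kids 197 (384,130) [(887,0)],.kids 128 (1184,128) [(889,0)],.kids 133 (928,129) [(891,0)],.kids 196 (96,193) [(893,0)],.kids 260 (32,192) [(895,0)],.kids 197 (1152,192) [(553,129),(885,0),(897,2)],.kids 64 (1568,0) [(288,0)],.kids 257 (4736,192) [(901,0)],.kids 257 (0,192) [(903,1)],.kids 193 (1216,128) [(905,0)],.kids 129 (480,65) [(1656,0)],.kids 193 (4864,192) [(909,0)],.kids 194 (907,65)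 [(11984,192),(911,2),(4704,192)],.kids 259 (847,2) [(3040,192),(855,64),(875,1),(228,192),(899,65),(913,0)],.kids 197 (251,3) [(3040,128),(561,2),(563,0)],.kids 194 (1216,129) [(655,0)],.kids 130 (1184,130) [(919,0)],.kids 198 (1984,131) [(921,0)],.kids 259 (480,131) [(783,0)],.kids 325 (561,130) [(923,128),(925,1)],.kids 325 (915,64) [(917,129),(927,1),(785,2)],.kids 196 (795,128) [(11120,1)],.kids 193 (1344,129) [(5152,0)],.kids 321 (1408,65) [(933,0)],.kids 131 (12112,64) [(935,3)],.kids 67 (1536,3) [(7328,64)],.kids 68 (1568,67) [(939,0)],.kids 323 (512,130) [(941,0)],.kids 261 (481,68) [(937,64),(943,2),(783,2)],.kids 196 (480,3) [(5520,128)],.kids 195 (512,2) [(947,0)],.kids 259 (783,0) [(949,128),(943,0)],.kids 129 (416,1) [(576,0)],.kids 3 (760,0) [(953,2)],.kids 195 (7328,192) [(5056,3)],.kids 259 (8672,2) [(760,192)],.kids 261 (9696,5) [(959,0)],.kids 66 (1216,1) [(961,0)],.kids 2 (1184,2) [(963,0)],.kids 70 (384,3) [(965,0)],.kids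 195 (384,128) [(6608,2)],.kids 198 (127,194) [(957,2),(967,192),(969,67)],.kids 196 (1408,4) [(332,0)],.kids 67 (1536,2) [(8016,64)],.kids 258 (448,65) [(975,0)],.kids 259 (448,66) [(1962,0)],.kids 69 (8048,66) [(973,64),(977,3),(979,2)],.kids 192 (1376,0) [(1344,128)],.kids 193 (1408,64) [(983,0)],.kids 197 (12448,4) [(773,0)],.kids 324 (777,3) [(985,4),(987,64)],.kids 387 (951,130) [(955,192),(971,0),(981,128),(989,192)],.kids 195 (2224,128) [(480,3)],.kids 260 (416,3) [(993,64)],.kids 195 (512,2) [(995,0)],.kids 195 (448,2) [(997,64)],.kids 3 (384,0) [(999,0)],.kids 194 (480,1) [(7936,128)],.kids 193 (512,0) [(1003,0)],.kids 260 (9696,4) [(1005,128)],.kids 320 (448,64) [(1007,0)],.kids 69 (384,2) [(1009,0)],.kids 193 (1536,1) [(1011,0)],.kids 5 (928,1) [(1013,0)],.kids 193 (1536,1) [(608,64)],.kids 257 (1001,1) [(1015,0),(1017,0)],.kids 129 (0,64) [(1019,0)],.kids 66 (2112,0) [(1021,1),(2496,1)]]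
theorem chk5 : checkFrom E5 t5 j5 0 = true := by decide +kernel
end Vale.Agent.P062
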