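import Vale.Agent.P062.Transport
import Vale.Agent.P062.Cert.D0
import Vale.Agent.P062.Cert.D1
import Vale.Agent.P062.Cert.D2
import Vale.Agent.P062.Cert.D3
import Vale.Agent.P062.Cert.D4
import Vale.Agent.P062.Cert.D5
import Vale.Agent.P062.Cert.D6
namespace Vale.Agent.P062
def E6 : Tree := .node (.node (.node (.node (.node t0 t1) t2) t3) t4) t5
set_option maxRecDepth 1000000 in
def j6 : List Just := [.kids 65 (3072,1) [(896,64)],.kids 257 (2688,65) [(1,0)],.kids 67 (768,64) [(3,1)],.kids 132 (128,128) [(5,1)],.kids 3 (896,2) [(768,0)],.kids 65 (0,64) [(9,1)],.kids 65 (2432,0) [(22400,1)],.kids 1 (2368,1) [(13,0)],.kids 258 (4448,258) [(15,0)],.kids 325 (960,133) [(17,0)],.kids 66 (0,65) [(19,0)],.kids 326 (832,69) [(21,0)],.kids 261 (1024,68) [(23,0)],.kids 197 (962,4) [(11,1),(25,0)],.kids 194 (24928,128) [(7,2),(27,64)],.kids 259 (1678,64) [(23392,192),(1858,128),(1862,66),(1890,128),(1982,0),(2046,192),(29,128)],.kids 195 (15248,128) [(1594,130),(1678,0),(16288,194)],.kids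 257 (2752,64) [(18752,1)],.kids 257 (512,64) [(35,1)],.kids 193 (0,128) [(37,1)],.kids 65 (2432,64) [(39,0)],.kids 196 (192,129) [(41,0)],.kids 196 (1272,129) [(22240,1),(43,64)],.kids 195 (15248,128) [(45,2),(23392,128),(16288,194)],.kids 68 (128,64) [(4800,0)],.kids 68 (3648,0) [(49,1),(16352,1)],.kids 68 (128,64) [(4992,0)],.kids 67 (192,64) [(53,0)],.kids 132 (64,64) [(55,1)],.kids 129 (2752,0) [(1398,64)],.kids 65 (448,1) [(1398,0)],.kids 195 (192,128) [(61,1)],.kids 67 (768,64) [(63,0)],.kids 259 (10240,2) [(192,192)],.kids 2 (24896,1) [(67,0)],.kids 131 (768,128) [(69,0)],.kids 130 (59,65) [(5944,0),(65,128),(71,64)],.kids 259 (5624,192) [(51,192),(57,192),(73,0),(3968,192)],.kids 68 (9472,3) [(8768,0)],.kids 70 (768,3) [(77,64)],.kids 6 (1856,2) [(79,0)],.kids 134 (192,67) [(28128,0)],.kids 70 (1224,3) [(3968,3),(81,1),(83,0)],.kids 193 (3072,1) [(1024,64)],.kids 67 (1408,2) [(192,64)],.kids 131 (1344,66) [(89,0)],.kids 195 (768,192) [(91,0)],.kids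 259 (192,256) [(93,0)],.kids 324 (64,256) [(95,1)],.kids 65 (0,0) [(960,1)],.kids 129 (2432,128) [(99,0)],.kids 1 (12160,0) [(101,0)],.kids 260 (384,256) [(97,1),(103,64)],.kids 193 (960,65) [(14304,0)],.kids 129 (0,64) [(107,0)],.kids 1 (2432,0) [(109,0)],.kids 65 (12160,64) [(111,0)],.kids 192 (9728,192) [(1024,0)],.kids 193 (960,65) [(115,0)],.kids 1 (2432,0) [(117,0)],.kids 129 (0,64) [(119,0)],.kids 65 (12160,64) [(121,0)],.kids 193 (9472,128) [(1024,0)],.kids 256 (896,0) [(125,64)],.kids 129 (960,1) [(127,0)],.kids 65 (0,0) [(129,0)],.kids 1 (131,0) [(12160,0)],.kids 259 (105,2) [(113,2),(123,2),(133,66),(6080,192),(456,192)],.kids 131 (1024,2) [(8832,0)],.kids 195 (3072,3) [(8832,64)],.kids 261 (87,4) [(135,0),(137,66),(139,2)],.kids 262 (946,67) [(75,4),(85,193),(340,65),(141,192)],.kids 517 (990,5) [(1578,128),(1598,257),(31,65),(33,129),(47,129),(143,65)],.kids 1 (24960,0) [(2816,0)],.kids 128 (2688,64) [(3072,0)],.kids 192 (147,0) [(7256,64),(3788,0),(149,0)],.kids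 129 (1024,0) [(16864,0)],.kids 68 (768,1) [(384,64)],.kids 4 (1856,0) [(155,0)],.kids 131 (192,64) [(28000,1)],.kids 5 (1856,1) [(159,0)],.kids 68 (2176,64) [(157,1),(161,0),(3968,1)],.kids 65 (3136,1) [(1344,0)],.kids 257 (0,192) [(165,0)],.kids 129 (2432,128) [(167,0)],.kids 196 (163,129) [(169,0)],.kids 193 (960,129) [(8000,0)],.kids 257 (2432,256) [(173,0)],.kids 322 (2304,320) [(175,1)],.kids 193 (9728,192) [(152,0)],.kids 192 (64,192) [(6560,0)],.kids 260 (192,193) [(181,0)],.kids 193 (2432,128) [(183,0)],.kids 194 (306,192) [(179,2),(185,65)],.kids 194 (1210,65) [(179,2),(306,192)],.kids 323 (171,130) [(177,0),(1110,256),(6656,256),(187,64),(189,64)],.kids 67 (14656,0) [(2432,0)],.kids 257 (448,128) [(640,0)],.kids 194 (193,128) [(195,1)],.kids 67 (17344,3) [(2504,0)],.kids 129 (1344,0) [(960,65)],.kids 260 (8704,192) [(201,2)],.kids 194 (192,194) [(698,0)],.kids 261 (199,1) [(203,2),(205,0)],.kids 129 (960,1) [(2432,128)],.kids 129 (960,1) [(1190,0)],.kids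 194 (698,0) [(209,1),(211,1)],.kids 193 (576,0) [(22976,64)],.kids 192 (9216,192) [(1024,0)],.kids 1 (832,1) [(217,0)],.kids 193 (215,1) [(1194,64),(219,0)],.kids 194 (197,1) [(207,128),(213,128),(221,65)],.kids 196 (169,0) [(490,1)],.kids 259 (8704,192) [(201,2)],.kids 195 (17280,2) [(192,192)],.kids 260 (227,0) [(229,1),(5968,192)],.kids 323 (223,0) [(189,64),(225,130),(231,130)],.kids 196 (960,3) [(4448,128)],.kids 259 (1344,2) [(235,64)],.kids 131 (1024,2) [(237,0)],.kids 259 (2624,192) [(2304,256),(1690,1)],.kids 66 (24960,2) [(8096,0)],.kids 260 (64,192) [(243,2)],.kids 193 (0,192) [(245,1)],.kids 257 (128,193) [(247,0)],.kids 70 (17344,6) [(249,0)],.kids 194 (2432,129) [(251,0)],.kids 130 (2368,130) [(253,0)],.kids 260 (8704,192) [(243,2)],.kids 69 (17344,5) [(257,0)],.kids 259 (0,194) [(259,0)],.kids 193 (2432,128) [(261,0)],.kids 129 (2368,129) [(263,0)],.kids 195 (4096,194) [(255,0),(265,1),(4224,129)],.kids 263 (192,196) [(267,0)],.kids 260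 (192,193) [(199,0)],.kids 65 (271,0) [(211,0)],.kids 325 (4224,258) [(269,128),(273,131),(175,3)],.kids 67 (448,3) [(2504,0)],.kids 132 (1024,3) [(277,0)],.kids 194 (960,1) [(193,128)],.kids 65 (3072,1) [(281,64)],.kids 66 (3136,65) [(283,0)],.kids 129 (896,128) [(285,0)],.kids 384 (1024,192) [(287,0)],.kids 65 (3072,1) [(2664,64)],.kids 66 (3136,65) [(291,0)],.kids 129 (1408,64) [(293,0)],.kids 128 (1344,128) [(295,0)],.kids 321 (4904,0) [(289,0),(297,0),(11648,128)],.kids 129 (1408,64) [(30848,0)],.kids 128 (1344,128) [(301,0)],.kids 192 (1024,0) [(11840,128)],.kids 257 (1344,0) [(305,64)],.kids 64 (1408,0) [(307,64)],.kids 323 (24896,67) [(309,0)],.kids 321 (303,0) [(1386,192),(311,128)],.kids 66 (14656,0) [(0,64)],.kids 67 (448,3) [(315,0)],.kids 132 (1024,3) [(317,0)],.kids 321 (1386,192) [(319,192),(4904,0)],.kids 67 (448,3) [(10144,0)],.kids 64 (1408,0) [(323,64)],.kids 196 (1024,67) [(325,0)],.kids 257 (1386,128) [(327,64),(1600,0)],.kids 257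 (279,192) [(299,0),(313,0),(321,0),(329,64)],.kids 66 (0,65) [(2560,0)],.kids 130 (128,66) [(333,0)],.kids 261 (24896,5) [(335,128)],.kids 66 (17344,1) [(193,0)],.kids 259 (8704,192) [(339,1)],.kids 66 (24896,1) [(341,0)],.kids 260 (24896,4) [(343,0)],.kids 193 (0,192) [(345,0)],.kids 257 (128,193) [(347,0)],.kids 324 (4224,257) [(337,128),(349,129),(175,2)],.kids 388 (239,196) [(241,130),(275,64),(331,3),(351,65)],.kids 193 (2432,128) [(16576,1)],.kids 129 (2368,129) [(355,0)],.kids 194 (0,193) [(357,0)],.kids 258 (128,194) [(359,0)],.kids 198 (361,0) [(3968,131)],.kids 197 (502,3) [(363,0),(706,2)],.kids 260 (24896,4) [(34,128)],.kids 259 (192,192) [(24896,3)],.kids 193 (0,192) [(369,1)],.kids 257 (128,193) [(371,0)],.kids 194 (367,0) [(373,0),(7232,129)],.kids 259 (24896,3) [(160,192)],.kids 129 (2432,128) [(165,0)],.kids 196 (0,192) [(379,0)],.kids 67 (448,3) [(243,0)],.kids 132 (1024,3) [(383,0)],.kids 258 (377,0) [(381,1),(385,0)],.kids 259 (385,1)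 [(24224,192)],.kids 129 (576,1) [(2504,64)],.kids 131 (448,67) [(391,0)],.kids 194 (9728,193) [(393,0)],.kids 196 (1024,67) [(395,0)],.kids 193 (2432,192) [(397,0)],.kids 258 (4224,192) [(373,64),(399,1)],.kids 322 (373,128) [(175,1)],.kids 192 (192,192) [(6560,0)],.kids 193 (2432,128) [(405,0)],.kids 259 (24896,3) [(407,0)],.kids 194 (306,192) [(409,65),(179,2)],.kids 257 (9472,192) [(16576,0)],.kids 129 (2432,128) [(413,1)],.kids 257 (0,192) [(415,0)],.kids 194 (367,0) [(373,0),(417,1)],.kids 68 (2368,0) [(9536,64)],.kids 258 (24896,2) [(421,128)],.kids 259 (16576,2) [(8768,192)],.kids 260 (24896,4) [(425,0)],.kids 194 (2432,129) [(427,0)],.kids 130 (306,128) [(423,2),(429,0)],.kids 323 (375,128) [(189,64),(387,129),(389,128),(401,64),(403,0),(411,64),(419,128),(431,128)],.kids 391 (153,198) [(191,66),(233,66),(353,0),(365,195),(433,66)],.kids 67 (192,66) [(2560,0)],.kids 192 (1024,0) [(20768,128)],.kids 194 (576,1) [(439,64)],.kids 258 (960,65) [(441,0)],.kids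 65 (2432,64) [(443,0)],.kids 321 (2944,1) [(445,64),(25568,64)],.kids 257 (0,192) [(447,0)],.kids 194 (192,193) [(449,0)],.kids 3 (192,2) [(16608,0)],.kids 196 (1182,130) [(435,0),(437,130),(451,3),(453,194)],.kids 129 (0,64) [(27520,1)],.kids 68 (9728,1) [(457,0)],.kids 194 (8768,192) [(459,193),(29728,0)],.kids 129 (8704,128) [(11744,0)],.kids 130 (2408,0) [(11616,0),(463,0)],.kids 193 (14656,128) [(465,0)],.kids 129 (192,128) [(18752,0)],.kids 129 (2432,128) [(469,1)],.kids 257 (0,192) [(471,0)],.kids 193 (14656,128) [(473,0)],.kids 194 (192,193) [(3360,0)],.kids 193 (2432,192) [(477,0)],.kids 257 (14656,192) [(479,0)],.kids 258 (20704,192) [(814,64),(461,0),(467,64),(475,64),(481,0)],.kids 195 (3072,3) [(352,0)],.kids 259 (650,131) [(483,0),(485,128)],.kids 66 (768,1) [(12160,64)],.kids 196 (2752,3) [(489,128)],.kids 259 (11648,2) [(1422,64)],.kids 129 (3328,1) [(8576,0),(14592,64)],.kids 192 (1024,0) [(192,192)],.kids 194 (960,1) [(497,0)],.kids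 129 (3328,1) [(30848,0),(499,128)],.kids 259 (493,128) [(495,2),(1196,2),(501,2)],.kids 260 (64,192) [(832,3)],.kids 196 (2432,128) [(505,1)],.kids 194 (14656,128) [(507,0)],.kids 196 (2752,3) [(509,64)],.kids 257 (1344,0) [(1216,64)],.kids 64 (1408,0) [(513,64)],.kids 257 (1024,64) [(14592,0)],.kids 256 (896,0) [(517,0)],.kids 257 (4904,0) [(515,128),(519,192),(303,0)],.kids 194 (960,1) [(507,0)],.kids 196 (2752,3) [(523,64)],.kids 192 (2752,0) [(448,192)],.kids 256 (1024,64) [(527,0)],.kids 65 (3072,1) [(529,0)],.kids 66 (3136,65) [(531,0)],.kids 129 (7936,64) [(8576,0),(533,0)],.kids 257 (14592,128) [(525,128),(535,0)],.kids 196 (2752,3) [(305,64)],.kids 129 (11648,0) [(539,0),(14592,0)],.kids 385 (511,128) [(521,0),(537,0),(541,128)],.kids 196 (2752,3) [(1274,0)],.kids 323 (491,130) [(503,0),(543,2),(545,130)],.kids 67 (768,2) [(4224,0)],.kids 5 (2816,4) [(549,0)],.kids 65 (192,64) [(4360,0)],.kids 195 (1182,129) [(547,0),(551,129),(553,131)],.kids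 66 (192,66) [(2560,0)],.kids 261 (17280,4) [(557,128)],.kids 130 (960,2) [(4832,128)],.kids 197 (1520,128) [(1122,2),(559,0),(561,2)],.kids 193 (192,193) [(984,0)],.kids 260 (17280,3) [(565,0)],.kids 197 (1520,128) [(567,1),(561,2)],.kids 260 (2928,0) [(563,64),(569,64)],.kids 130 (3072,2) [(18880,0)],.kids 325 (147,133) [(555,0),(571,130),(573,131)],.kids 390 (151,134) [(1578,1),(455,0),(487,3),(575,1)],.kids 68 (192,1) [(0,64)],.kids 194 (576,1) [(579,128)],.kids 258 (960,65) [(581,0)],.kids 257 (1336,64) [(1216,64),(31360,64),(583,0)],.kids 65 (2432,64) [(585,0)],.kids 193 (0,128) [(587,0)],.kids 196 (22432,0) [(1272,129),(589,64)],.kids 195 (16288,194) [(591,2),(1304,128),(15248,128)],.kids 391 (922,2) [(23712,194),(3896,194),(958,132),(145,65),(577,192),(593,194),(1996,194)],.kids 67 (14656,0) [(16032,1)],.kids 66 (9472,1) [(15872,0)],.kids 4 (11904,0) [(599,0)],.kids 67 (597,1) [(7304,0),(601,2),(7320,0)],.kids 68 (128,64) [(2692,1)],.kids 65 (0,64)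 [(3984,0)],.kids 67 (24928,64) [(605,2),(607,1)],.kids 66 (14656,0) [(16032,1)],.kids 66 (2432,1) [(28256,0)],.kids 197 (960,4) [(613,128)],.kids 195 (1024,3) [(615,0)],.kids 260 (617,64) [(12928,4)],.kids 65 (9728,64) [(16032,0)],.kids 193 (1024,1) [(621,64)],.kids 195 (960,2) [(623,0)],.kids 258 (12928,2) [(625,64)],.kids 128 (10080,128) [(1100,0)],.kids 196 (960,3) [(629,0)],.kids 259 (12928,3) [(631,64)],.kids 196 (611,129) [(619,0),(627,2),(633,1)],.kids 321 (2616,0) [(1600,0),(1216,128)],.kids 257 (576,0) [(24896,1)],.kids 257 (0,192) [(2752,1)],.kids 193 (768,129) [(641,0)],.kids 196 (12928,4) [(643,64)],.kids 195 (192,192) [(17344,2)],.kids 260 (64,192) [(647,1)],.kids 192 (1024,0) [(649,0)],.kids 1 (960,1) [(651,0)],.kids 193 (1024,64) [(12928,1)],.kids 260 (639,66) [(645,0),(653,65),(655,3)],.kids 261 (655,4) [(1520,192)],.kids 259 (2752,3) [(24224,192)],.kids 195 (768,192) [(12928,3)],.kids 260 (9520,192) [(663,1)],.kids 259 (661,64) [(665,2),(8928,67)],.kids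 259 (192,192) [(17344,2)],.kids 196 (2432,128) [(669,1)],.kids 195 (24896,2) [(671,0)],.kids 258 (576,1) [(673,0)],.kids 325 (1172,3) [(657,66),(659,65),(667,64),(675,131)],.kids 259 (17344,2) [(768,192)],.kids 196 (1856,192) [(679,1)],.kids 256 (1024,64) [(681,0)],.kids 194 (1024,2) [(3776,128)],.kids 261 (683,2) [(9856,192),(685,64)],.kids 260 (960,67) [(687,0)],.kids 259 (14592,2) [(11648,2),(689,0)],.kids 195 (24896,2) [(23872,128)],.kids 194 (576,1) [(693,0)],.kids 258 (960,65) [(695,0)],.kids 258 (576,1) [(693,0)],.kids 260 (1952,2) [(699,66),(27392,64)],.kids 323 (2616,2) [(697,66),(515,66),(701,0)],.kids 129 (3072,65) [(1600,0)],.kids 130 (3136,129) [(705,0)],.kids 192 (1408,128) [(1848,0)],.kids 65 (3072,1) [(709,0)],.kids 66 (3136,65) [(711,0)],.kids 193 (7936,128) [(707,0),(713,64),(8576,64)],.kids 256 (448,192) [(15552,0)],.kids 192 (1408,128) [(717,0)],.kids 385 (14304,128) [(719,0),(11648,128)],.kids 257 (715,0) [(4904,64),(721,128),(11648,192)],.kids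 258 (832,1) [(7984,0)],.kids 68 (2432,0) [(0,64)],.kids 195 (24896,2) [(727,128)],.kids 194 (576,1) [(729,0)],.kids 258 (960,65) [(731,0)],.kids 321 (1216,128) [(725,128),(733,64),(721,0)],.kids 131 (1600,2) [(4872,64),(14592,66)],.kids 452 (637,195) [(677,128),(691,257),(703,193),(723,3),(1308,195),(735,195),(737,129)],.kids 195 (2432,128) [(960,3)],.kids 260 (832,3) [(741,64)],.kids 195 (896,2) [(743,0)],.kids 131 (192,64) [(745,0)],.kids 66 (768,0) [(747,0)],.kids 64 (1408,0) [(749,0)],.kids 258 (960,65) [(751,0)],.kids 66 (64,64) [(768,0)],.kids 132 (448,3) [(755,0)],.kids 64 (1408,0) [(757,0)],.kids 195 (24448,192) [(17280,3)],.kids 256 (1024,64) [(761,0)],.kids 260 (17344,3) [(763,0)],.kids 68 (11840,64) [(650,3)],.kids 128 (1408,64) [(767,0)],.kids 259 (24448,256) [(769,0)],.kids 320 (1024,128) [(771,0)],.kids 64 (11840,0) [(1408,0)],.kids 4 (1024,3) [(775,0)],.kids 132 (448,3) [(777,0)],.kids 195 (24448,192) [(779,0)],.kids 256 (1024,64) [(781,0)],.kids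 260 (759,64) [(765,64),(773,0),(783,64)],.kids 321 (1216,128) [(753,64),(785,0)],.kids 195 (1024,3) [(643,0)],.kids 196 (12928,4) [(789,64)],.kids 64 (10144,64) [(1408,0)],.kids 194 (960,1) [(649,0)],.kids 192 (1024,0) [(795,0)],.kids 65 (793,0) [(797,64)],.kids 68 (2248,64) [(650,3)],.kids 196 (3072,4) [(789,64)],.kids 69 (2248,65) [(803,0)],.kids 260 (791,0) [(799,1),(801,1),(805,0)],.kids 195 (0,192) [(649,1)],.kids 193 (2752,1) [(809,0)],.kids 194 (960,1) [(25600,128)],.kids 193 (1024,0) [(813,0)],.kids 257 (962,1) [(811,0),(815,65)],.kids 260 (801,1) [(817,64),(805,0)],.kids 65 (1216,64) [(793,0)],.kids 65 (10144,64) [(1408,0)],.kids 67 (768,1) [(2432,0)],.kids 65 (448,1) [(825,0)],.kids 192 (448,128) [(23296,0)],.kids 129 (823,65) [(827,128),(829,1)],.kids 322 (637,65) [(787,65),(807,64),(819,64),(821,65),(831,0)],.kids 0 (10240,0) [(512,0)],.kids 64 (448,64) [(835,0)],.kids 128 (10144,128) [(837,0)],.kids 129 (1212,128) [(1200,0),(2792,64),(839,0)],.kids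 67 (768,64) [(650,2)],.kids 130 (0,128) [(843,1)],.kids 193 (896,64) [(12928,1)],.kids 321 (960,128) [(847,1)],.kids 68 (9728,2) [(10624,0)],.kids 66 (24448,2) [(851,64)],.kids 261 (845,2) [(849,3),(853,128)],.kids 194 (1024,2) [(884,128)],.kids 261 (845,2) [(857,128)],.kids 323 (1216,130) [(855,0),(859,0)],.kids 192 (24448,128) [(1848,0)],.kids 129 (1600,0) [(863,64),(793,64)],.kids 66 (24448,2) [(10688,64)],.kids 196 (14400,3) [(867,64)],.kids 196 (24448,192) [(17408,3)],.kids 256 (1024,64) [(871,0)],.kids 131 (448,2) [(344,0)],.kids 66 (0,64) [(875,1)],.kids 196 (24448,192) [(877,0)],.kids 256 (1024,64) [(879,0)],.kids 259 (845,0) [(873,64),(881,64)],.kids 1 (832,1) [(2432,0)],.kids 258 (960,65) [(885,0)],.kids 66 (0,64) [(887,0)],.kids 321 (1216,128) [(883,0),(889,64)],.kids 324 (677,0) [(821,67),(861,65),(865,3),(869,129),(891,67)],.kids 324 (1236,259) [(739,0),(833,130),(841,131),(893,128)],.kids 258 (2688,66) [(10288,0)],.kids 129 (14656,64) [(897,0)],.kids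 194 (9472,129) [(899,0)],.kids 68 (128,64) [(20832,1)],.kids 130 (14720,65) [(901,0),(903,65)],.kids 66 (768,0) [(9472,64)],.kids 321 (8576,0) [(2616,0),(30592,65)],.kids 323 (192,256) [(8576,2)],.kids 258 (768,192) [(911,0)],.kids 259 (394,192) [(909,2),(913,0),(6040,64)],.kids 67 (394,0) [(6104,0),(21696,0),(2716,0)],.kids 259 (907,192) [(915,64),(6056,0),(917,256)],.kids 68 (0,64) [(9728,1)],.kids 257 (448,64) [(3136,1)],.kids 2 (9472,0) [(923,0)],.kids 195 (7456,128) [(925,2)],.kids 67 (2752,2) [(927,64)],.kids 65 (24448,64) [(2752,0)],.kids 68 (11840,64) [(931,0)],.kids 131 (768,128) [(933,0)],.kids 195 (9728,128) [(935,0)],.kids 196 (921,129) [(929,0),(937,2)],.kids 194 (2688,2) [(625,0)],.kids 258 (18752,2) [(939,0),(941,128)],.kids 65 (2752,0) [(12928,1)],.kids 130 (9472,128) [(945,0)],.kids 257 (3072,1) [(13856,128)],.kids 320 (19392,64) [(949,0)],.kids 66 (9472,64) [(951,0)],.kids 129 (15552,0) [(947,0),(953,64)],.kids 132 (9728,65) [(6176,0)],.kids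 387 (192,320) [(5128,2)],.kids 259 (768,256) [(959,0)],.kids 323 (9728,256) [(961,0)],.kids 259 (7456,192) [(16512,2)],.kids 193 (9728,128) [(1024,1)],.kids 195 (960,2) [(967,0)],.kids 194 (2688,2) [(969,0)],.kids 129 (15872,64) [(971,0)],.kids 258 (18752,2) [(965,0),(973,128)],.kids 324 (957,193) [(963,2),(975,128)],.kids 195 (768,129) [(20352,0)],.kids 195 (9728,129) [(20352,0)],.kids 324 (2632,3) [(979,128),(981,128)],.kids 260 (907,193) [(983,0),(6056,1),(917,257)],.kids 197 (919,2) [(943,128),(955,66),(977,0),(985,1)],.kids 1 (2688,0) [(448,1)],.kids 66 (9472,64) [(989,1)],.kids 129 (991,64) [(15552,0)],.kids 129 (2688,128) [(23296,1)],.kids 194 (9472,192) [(995,1)],.kids 193 (15552,64) [(997,0)],.kids 196 (24448,192) [(10112,3)],.kids 193 (15552,64) [(1001,0)],.kids 195 (2632,2) [(993,64),(999,0),(1003,0),(495,2)],.kids 66 (11904,64) [(1408,2)],.kids 67 (3072,3) [(1007,0)],.kids 68 (3136,67) [(1009,0)],.kids 323 (1216,130) [(1011,0)],.kids 196 (10080,128)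 [(14400,3)],.kids 259 (6008,128) [(1013,0),(1015,64)],.kids 195 (991,128) [(6040,128),(997,0)],.kids 193 (15552,64) [(1019,0)],.kids 323 (394,256) [(1005,0),(1017,128),(1021,0)]]
theorem chk6 : checkFrom E6 t6 j6 0 = true := by decide +kernel
end Vale.Agent.P062
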