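import Vale.Agent.P062.Transport
import Vale.Agent.P062.Cert.D0
import Vale.Agent.P062.Cert.D1
import Vale.Agent.P062.Cert.D2
import Vale.Agent.P062.Cert.D3
import Vale.Agent.P062.Cert.D4
import Vale.Agent.P062.Cert.D5
import Vale.Agent.P062.Cert.D6
import Vale.Agent.P062.Cert.D7
namespace Vale.Agent.P062
def E7 : Tree := .node (.node (.node (.node (.node (.node t0 t1) t2) t3) t4) t5) t6
set_option maxRecDepth 1000000 in
def j7 : List Just := [.kids 131 (384,64) [(11344,0)],.kids 130 (26432,1) [(1,128)],.kids 195 (0,192) [(3,1)],.kids 260 (12528,256) [(2046,1),(5,64)],.kids 130 (18944,129) [(1798,0)],.kids 196 (1920,3) [(2200,0)],.kids 195 (896,2) [(11,0)],.kids 259 (6272,3) [(13,128)],.kids 68 (6144,3) [(15,64)],.kids 67 (5504,2) [(17,0)],.kids 129 (29312,64) [(20576,0)],.kids 130 (5376,66) [(21,0)],.kids 195 (19456,128) [(940,2)],.kids 258 (38784,2) [(25,64)],.kids 258 (23,0) [(27,1)],.kids 132 (31104,3) [(19,1),(29,128)],.kids 258 (37504,2)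 [(32064,192)],.kids 322 (9,128) [(31,0),(33,65)],.kids 67 (5504,2) [(96,0)],.kids 194 (19456,128) [(18112,1)],.kids 128 (23680,64) [(39,0)],.kids 195 (5376,3) [(41,0)],.kids 193 (5008,192) [(2616,64),(43,128),(2408,0)],.kids 195 (5376,3) [(2424,128)],.kids 260 (47,64) [(32896,3)],.kids 259 (5376,67) [(2408,0)],.kids 260 (32896,3) [(51,0)],.kids 195 (5376,3) [(5584,64)],.kids 260 (32896,3) [(55,64)],.kids 321 (49,0) [(53,0),(57,0),(1274,64)],.kids 193 (5376,65) [(1152,0)],.kids 65 (4864,64) [(61,1)],.kids 193 (1152,0) [(25,64)],.kids 65 (4864,64) [(65,1)],.kids 259 (38784,3) [(67,0)],.kids 193 (1920,1) [(254,0)],.kids 259 (38784,3) [(71,64)],.kids 65 (4864,64) [(73,0)],.kids 193 (5376,65) [(27,0)],.kids 258 (63,0) [(69,0),(75,0),(77,1)],.kids 130 (1536,65) [(79,0)],.kids 257 (4496,192) [(45,0),(59,64),(81,128)],.kids 132 (31104,3) [(37,1),(83,0)],.kids 260 (1810,192) [(1974,1),(7,2),(35,64),(85,64)],.kids 388 (1206,322) [(1218,258),(1270,194),(1790,0),(87,3)],.kids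 194 (17856,2) [(32000,128)],.kids 193 (2048,1) [(19040,128)],.kids 65 (6144,0) [(34560,65)],.kids 323 (384,256) [(95,1)],.kids 256 (2048,64) [(97,0)],.kids 65 (29312,0) [(18560,65)],.kids 66 (19456,66) [(101,0)],.kids 261 (93,65) [(99,2),(103,128)],.kids 260 (1920,67) [(105,0)],.kids 259 (2432,66) [(107,0),(25856,3)],.kids 321 (25856,65) [(62720,128),(6656,1)],.kids 1 (2048,0) [(2008,1)],.kids 194 (113,2) [(4672,128)],.kids 259 (91,64) [(61824,2),(109,64),(111,2),(115,64)],.kids 67 (0,2) [(24320,0)],.kids 65 (4864,0) [(119,64)],.kids 1 (4736,1) [(121,0)],.kids 67 (8192,66) [(16800,0),(123,1),(8448,1)],.kids 68 (3712,4) [(125,0)],.kids 71 (508,4) [(127,0),(310,4)],.kids 193 (2048,0) [(61056,1)],.kids 256 (1792,0) [(131,64)],.kids 194 (1920,1) [(59136,128)],.kids 320 (1792,64) [(135,0)],.kids 257 (16128,1) [(133,64),(137,0),(2432,64)],.kids 67 (128,64) [(7808,0)],.kids 66 (6144,1) [(141,0)],.kids 64 (2816,0) [(143,0)],.kids 257 (139,64) [(145,0)],.kids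 129 (22912,64) [(23296,64),(17152,0)],.kids 193 (29952,0) [(147,128),(149,0),(28800,129)],.kids 3 (29312,0) [(18944,2)],.kids 67 (31744,1) [(153,0)],.kids 321 (3264,64) [(2432,128),(3200,0)],.kids 196 (17408,128) [(28800,3)],.kids 259 (33472,192) [(157,2),(159,64)],.kids 130 (17152,1) [(1938,128)],.kids 65 (2816,1) [(18944,64)],.kids 67 (6144,2) [(165,0)],.kids 258 (2432,65) [(167,0)],.kids 321 (3264,64) [(6656,1)],.kids 65 (3696,0) [(61184,1)],.kids 129 (3696,64) [(17152,0),(23296,64)],.kids 322 (157,65) [(163,0),(169,128),(171,65),(173,65),(175,1)],.kids 64 (1536,0) [(384,64)],.kids 323 (163,1) [(8040,0),(179,192)],.kids 195 (50048,192) [(161,64),(177,1),(181,0)],.kids 196 (384,193) [(41792,0)],.kids 260 (128,192) [(185,0)],.kids 196 (4736,128) [(187,1)],.kids 129 (4864,128) [(189,1)],.kids 132 (1536,129) [(191,0)],.kids 68 (4736,0) [(60992,1)],.kids 3 (1536,0) [(195,0)],.kids 1 (4864,0) [(197,1)],.kids 259 (44480,1) [(13088,0),(199,128)],.kids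 193 (9600,128) [(193,0),(201,0),(3584,1)],.kids 131 (52608,3) [(3040,128)],.kids 69 (0,65) [(4992,0)],.kids 69 (888,2) [(7552,0),(207,1)],.kids 131 (52608,3) [(19712,128)],.kids 260 (205,0) [(1884,2),(209,129),(211,0)],.kids 261 (8064,193) [(183,2),(10112,66),(13824,193),(2156,193),(203,65),(213,64)],.kids 1 (1920,1) [(5296,0)],.kids 323 (29312,256) [(47360,2)],.kids 195 (6856,192) [(219,0)],.kids 320 (31744,256) [(47360,0)],.kids 193 (217,128) [(29952,0),(221,0),(223,0)],.kids 259 (49728,256) [(10112,66),(225,0)],.kids 193 (8896,193) [(29952,0)],.kids 195 (2816,131) [(229,0)],.kids 196 (231,0) [(6656,68)],.kids 196 (62720,195) [(231,0)],.kids 388 (5888,68) [(233,0),(235,0),(20224,68)],.kids 324 (23680,257) [(237,0)],.kids 261 (155,256) [(215,1),(227,0),(239,0)],.kids 66 (384,65) [(4992,0)],.kids 69 (6144,4) [(243,0)],.kids 67 (2816,3) [(245,0)],.kids 260 (61184,4) [(29184,3),(247,0)],.kids 65 (23680,0) [(23808,0)],.kids 68 (6144,3) [(251,64)],.kids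 66 (2816,2) [(253,0)],.kids 131 (6656,3) [(5232,2),(255,64)],.kids 66 (29312,0) [(384,65)],.kids 67 (896,3) [(259,0)],.kids 67 (2816,3) [(261,64)],.kids 68 (1664,68) [(263,0)],.kids 67 (17408,0) [(896,3)],.kids 2 (384,1) [(267,0)],.kids 67 (2816,3) [(269,64)],.kids 260 (1920,68) [(271,0)],.kids 325 (265,0) [(273,64),(430,68),(16096,68)],.kids 321 (17152,0) [(6656,1),(29184,64)],.kids 257 (6272,1) [(2432,64)],.kids 66 (6144,1) [(279,64)],.kids 257 (2688,0) [(16240,64)],.kids 66 (14912,0) [(283,66)],.kids 196 (1920,3) [(285,0)],.kids 67 (6144,3) [(287,64)],.kids 68 (6272,67) [(289,0)],.kids 68 (8896,0) [(22656,66)],.kids 2 (2688,2) [(293,0)],.kids 322 (1792,66) [(295,0)],.kids 259 (1920,67) [(297,0)],.kids 260 (1664,3) [(299,0)],.kids 323 (281,66) [(291,0),(301,128),(6656,3)],.kids 2 (256,1) [(21728,0)],.kids 69 (6144,4) [(305,64)],.kids 68 (2816,3) [(307,0)],.kids 66 (384,65) [(63552,0)],.kids 67 (896,3) [(311,0)],.kids 131 (309,64) [(18048,3),(313,128)],.kids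 196 (249,128) [(5264,3),(257,1),(275,64),(277,67),(303,65),(315,0)],.kids 321 (6656,1) [(2432,128),(22912,64)],.kids 196 (20160,128) [(57984,3)],.kids 323 (12016,192) [(319,66),(321,128),(12048,0)],.kids 67 (6144,3) [(14912,64)],.kids 68 (6272,67) [(325,0)],.kids 131 (2816,66) [(327,0)],.kids 130 (2688,130) [(329,0)],.kids 387 (2432,194) [(331,0)],.kids 193 (3712,129) [(1282,0)],.kids 196 (384,194) [(335,0)],.kids 325 (321,130) [(333,2),(337,64)],.kids 196 (1536,130) [(335,0)],.kids 325 (317,1) [(323,66),(339,64),(341,128)],.kids 259 (145,2) [(8512,64)],.kids 65 (128,65) [(7968,0)],.kids 67 (29312,64) [(39424,3)],.kids 68 (1536,65) [(349,0)],.kids 132 (384,129) [(351,0)],.kids 258 (20480,1) [(31744,192)],.kids 194 (19456,129) [(355,0)],.kids 65 (5504,0) [(357,64)],.kids 260 (18560,192) [(359,0)],.kids 196 (347,128) [(353,65),(361,2),(11936,193)],.kids 195 (5376,130) [(363,0)],.kids 65 (2816,0) [(19456,64)],.kids 64 (2688,64) [(367,0)],.kids 133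 (369,2) [(65088,128),(15584,64)],.kids 131 (6144,67) [(371,0)],.kids 68 (128,65) [(7968,0)],.kids 129 (4864,128) [(46592,1)],.kids 196 (128,193) [(377,0)],.kids 193 (375,128) [(379,0),(50048,128)],.kids 195 (5376,130) [(381,0)],.kids 132 (1056,3) [(365,1),(373,0),(64256,65),(383,1)],.kids 67 (18944,66) [(18688,0)],.kids 69 (31744,65) [(387,0)],.kids 194 (20224,1) [(389,192)],.kids 193 (0,192) [(5504,1)],.kids 257 (256,193) [(393,0)],.kids 197 (1536,130) [(395,0)],.kids 324 (508,257) [(391,1),(397,128),(335,128)],.kids 66 (128,64) [(7808,0)],.kids 192 (46720,0) [(401,128)],.kids 259 (384,192) [(21824,2)],.kids 195 (1536,128) [(405,0)],.kids 196 (335,0) [(407,2),(397,0)],.kids 195 (5504,3) [(48448,192)],.kids 196 (20288,128) [(46720,3)],.kids 129 (2816,64) [(413,0)],.kids 128 (2688,128) [(415,0)],.kids 324 (41536,320) [(417,0)],.kids 385 (2048,192) [(419,0)],.kids 195 (2048,2) [(4672,128)],.kids 387 (1924,131) [(411,128),(421,3),(423,193)],.kids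 196 (3712,129) [(1282,0)],.kids 259 (31744,256) [(22176,0)],.kids 193 (0,128) [(250,1)],.kids 132 (3712,65) [(431,0)],.kids 321 (427,128) [(429,1),(46336,129),(433,192)],.kids 67 (31744,64) [(23552,0)],.kids 65 (4864,0) [(128,65)],.kids 67 (19456,1) [(439,0)],.kids 65 (2816,1) [(441,64)],.kids 66 (2048,65) [(443,0)],.kids 259 (1322,64) [(437,131),(445,2)],.kids 64 (2816,0) [(401,0)],.kids 259 (8512,64) [(449,2)],.kids 198 (403,3) [(409,130),(425,0),(435,2),(447,64),(451,129)],.kids 195 (384,192) [(33152,2)],.kids 260 (128,192) [(455,1)],.kids 195 (1536,128) [(457,0)],.kids 195 (3712,128) [(459,1)],.kids 192 (2048,0) [(461,0)],.kids 131 (384,64) [(5632,2)],.kids 67 (1536,0) [(465,0)],.kids 4 (3712,0) [(467,1)],.kids 260 (41536,256) [(469,1)],.kids 321 (2048,128) [(471,0)],.kids 67 (0,64) [(473,0)],.kids 320 (1792,64) [(475,0)],.kids 67 (0,64) [(7936,1)],.kids 68 (463,64) [(477,0),(479,0)],.kids 66 (6144,1) [(481,0)],.kids 129 (17152,0) [(483,64),(23296,64)],.kids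 192 (3712,128) [(2048,0)],.kids 65 (6144,1) [(487,64)],.kids 68 (42880,0) [(455,66)],.kids 325 (128,257) [(491,0)],.kids 65 (2816,0) [(493,64)],.kids 64 (2688,64) [(495,0)],.kids 324 (1536,257) [(497,0)],.kids 129 (6144,65) [(499,0)],.kids 323 (508,256) [(489,64),(501,0)],.kids 132 (1056,3) [(1120,128),(503,2)],.kids 196 (149,3) [(343,2),(345,129),(385,1),(399,2),(453,0),(485,3),(505,1)],.kids 195 (29952,2) [(147,130),(385,0),(28800,131)],.kids 68 (29312,1) [(320,64)],.kids 68 (18560,1) [(511,64)],.kids 195 (1920,2) [(513,0)],.kids 67 (6144,2) [(515,64)],.kids 65 (2816,1) [(517,0)],.kids 259 (139,66) [(8512,64),(519,1)],.kids 195 (29952,2) [(521,128),(149,2),(28800,131)],.kids 257 (28608,0) [(2732,64),(62464,64)],.kids 257 (6272,1) [(23296,0)],.kids 193 (1920,1) [(527,0)],.kids 258 (1664,1) [(529,64)],.kids 66 (29312,0) [(4264,1)],.kids 65 (19456,64) [(4264,0)],.kids 195 (1920,2) [(535,64)],.kids 193 (2048,1) [(537,0)],.kids 196 (1920,3) [(18432,128)],.kids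 128 (23680,64) [(541,0)],.kids 194 (2048,2) [(543,0)],.kids 130 (533,65) [(1234,0),(539,2),(545,1)],.kids 196 (62720,3) [(525,3),(531,3),(547,0),(2432,3)],.kids 257 (5376,192) [(54528,0)],.kids 385 (2048,192) [(551,1)],.kids 384 (1792,128) [(553,0)],.kids 386 (1920,193) [(26240,0)],.kids 385 (133,192) [(2432,192),(555,64),(557,0)],.kids 194 (4672,128) [(46336,2)],.kids 130 (17152,1) [(29696,128)],.kids 67 (1536,1) [(0,64)],.kids 193 (4864,128) [(1920,1)],.kids 194 (4736,129) [(567,0)],.kids 195 (2048,3) [(569,0)],.kids 196 (1920,4) [(571,0)],.kids 261 (1664,4) [(573,64)],.kids 66 (2816,2) [(2716,0)],.kids 64 (45248,0) [(577,0)],.kids 260 (61184,4) [(575,64),(579,1)],.kids 67 (384,65) [(7296,0)],.kids 66 (6144,1) [(583,0)],.kids 64 (2816,0) [(585,0)],.kids 65 (45248,1) [(587,0)],.kids 3 (1536,0) [(896,3)],.kids 67 (384,65) [(591,0)],.kids 64 (2816,0) [(593,0)],.kids 66 (6144,1) [(595,0)],.kids 65 (45248,1) [(597,0)],.kids 66 (384,64) [(1756,0)],.kids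 65 (6144,0) [(601,0)],.kids 64 (603,0) [(45248,0)],.kids 196 (581,128) [(589,128),(599,128),(605,129),(5264,3),(21344,3)],.kids 66 (1536,0) [(640,64)],.kids 3 (0,0) [(640,1)],.kids 324 (565,256) [(607,0),(609,257),(611,320)],.kids 388 (549,256) [(559,67),(561,193),(563,66),(613,3)],.kids 264 (129,256) [(151,4),(241,4),(507,1),(509,2),(523,2),(615,1)],.kids 2 (0,0) [(18944,1)],.kids 64 (31744,0) [(48896,0)],.kids 3 (619,0) [(1194,0),(1202,1),(621,0)],.kids 193 (1920,129) [(17152,0)],.kids 66 (1536,0) [(52096,0)],.kids 256 (1792,0) [(1972,0)],.kids 194 (1920,1) [(25984,64)],.kids 320 (1792,64) [(631,0)],.kids 257 (16128,1) [(629,64),(633,0),(2432,64)],.kids 65 (4736,0) [(256,64)],.kids 68 (6144,3) [(637,0)],.kids 66 (2816,2) [(639,0)],.kids 259 (635,66) [(641,0)],.kids 68 (2816,4) [(874,0)],.kids 133 (6656,5) [(645,64)],.kids 257 (1152,0) [(5376,192)],.kids 193 (6144,128) [(649,0)],.kids 385 (2048,192) [(651,1)],.kids 384 (1792,128) [(653,0)],.kids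 321 (16128,65) [(655,0),(2432,128)],.kids 385 (6656,65) [(657,128),(281,128),(31392,1)],.kids 67 (896,3) [(24096,0)],.kids 67 (1664,67) [(23584,0)],.kids 324 (1920,131) [(663,0)],.kids 131 (2816,66) [(665,0)],.kids 131 (1658,3) [(661,128),(667,1)],.kids 131 (1658,3) [(661,128),(329,1)],.kids 197 (643,130) [(647,0),(659,4),(990,4),(669,1),(671,1)],.kids 193 (5504,0) [(2816,0)],.kids 68 (19456,2) [(19584,0)],.kids 131 (675,2) [(677,64)],.kids 193 (20288,192) [(9520,0)],.kids 259 (1152,2) [(384,192)],.kids 194 (4736,128) [(683,1)],.kids 131 (1920,131) [(2022,0)],.kids 324 (681,64) [(685,128),(687,0)],.kids 66 (384,64) [(2816,2)],.kids 4 (6272,3) [(3712,0)],.kids 66 (384,64) [(693,0)],.kids 131 (2022,0) [(691,64),(695,64)],.kids 3 (20480,3) [(63552,0)],.kids 67 (3492,64) [(178,1),(699,0)],.kids 131 (679,64) [(689,2),(697,2),(701,65)],.kids 196 (1920,3) [(20160,128)],.kids 259 (641,0) [(705,64)],.kids 66 (4736,0) [(384,65)],.kids 196 (1152,3) [(709,128)],.kids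 195 (20160,128) [(1920,3)],.kids 260 (711,0) [(713,64),(16096,3)],.kids 197 (703,0) [(671,1),(707,130),(715,130)],.kids 196 (4736,128) [(33280,1)],.kids 194 (1536,128) [(719,0)],.kids 196 (5232,3) [(6656,4),(247,64)],.kids 129 (48896,128) [(53760,0)],.kids 260 (1664,3) [(725,128)],.kids 67 (6144,3) [(727,64)],.kids 68 (6272,67) [(729,0)],.kids 385 (20288,384) [(731,0)],.kids 131 (2816,66) [(733,0)],.kids 130 (2688,130) [(735,0)],.kids 260 (1152,3) [(725,128)],.kids 321 (20288,320) [(739,0)],.kids 196 (6144,131) [(741,0)],.kids 67 (2816,2) [(743,0)],.kids 66 (2688,66) [(745,0)],.kids 195 (6400,131) [(737,0),(747,64),(17152,66)],.kids 452 (1920,259) [(749,0)],.kids 65 (23680,0) [(9520,0)],.kids 193 (20288,192) [(753,0)],.kids 260 (1920,67) [(755,0)],.kids 67 (6144,3) [(757,64)],.kids 68 (6272,67) [(759,0)],.kids 325 (17152,132) [(751,2),(761,130),(645,192)],.kids 193 (19456,192) [(9520,0)],.kids 258 (1536,192) [(765,0)],.kids 131 (384,64) [(675,2)],.kids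 65 (0,64) [(769,1)],.kids 129 (256,65) [(771,0)],.kids 66 (3712,2) [(773,0)],.kids 6 (1536,3) [(775,0)],.kids 65 (0,64) [(8752,1)],.kids 129 (256,65) [(779,0)],.kids 66 (4864,1) [(781,0)],.kids 2 (4736,2) [(783,0)],.kids 69 (6224,0) [(777,0),(785,0),(9984,2)],.kids 67 (1536,0) [(49792,2)],.kids 4 (3712,0) [(789,1)],.kids 196 (23680,192) [(791,0)],.kids 3 (1536,0) [(49792,2)],.kids 68 (4736,0) [(795,1)],.kids 196 (23680,192) [(797,0)],.kids 1 (4864,0) [(799,1)],.kids 69 (7552,1) [(793,3),(11552,0),(801,2)],.kids 129 (6144,1) [(5504,0)],.kids 193 (19456,192) [(805,0)],.kids 258 (1536,192) [(807,0)],.kids 69 (469,3) [(809,3),(6224,0)],.kids 193 (19456,192) [(34688,0)],.kids 1 (4864,0) [(813,1)],.kids 259 (1536,193) [(815,0)],.kids 68 (7552,0) [(817,1),(793,2)],.kids 68 (767,3) [(787,0),(803,0),(811,0),(819,1)],.kids 129 (6144,65) [(16000,0)],.kids 130 (6272,129) [(823,0)],.kids 324 (23680,320) [(825,2)],.kids 129 (20288,64) [(675,0)],.kids 196 (1152,3)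 [(829,64)],.kids 129 (23680,64) [(831,0)],.kids 260 (23680,256) [(833,0)],.kids 67 (6144,3) [(835,0)],.kids 68 (6272,67) [(837,0)],.kids 261 (645,128) [(827,2),(839,66),(17152,68)],.kids 262 (721,259) [(723,130),(763,1),(821,192),(841,65)],.kids 67 (2816,2) [(8896,64)],.kids 66 (2688,66) [(845,0)],.kids 131 (6144,67) [(847,0)],.kids 132 (6272,131) [(849,0)],.kids 387 (2432,194) [(851,0)],.kids 323 (853,0) [(2030,128),(12016,192)],.kids 260 (23680,256) [(3904,2)],.kids 260 (23680,256) [(3056,3)],.kids 68 (5376,3) [(8896,0)],.kids 66 (2816,2) [(861,64)],.kids 68 (6144,3) [(863,0)],.kids 131 (857,0) [(859,0),(865,64)],.kids 132 (23680,128) [(32768,3)],.kids 193 (19456,192) [(725,0)],.kids 258 (1536,192) [(871,0)],.kids 66 (2816,2) [(637,0)],.kids 259 (6144,3) [(875,0)],.kids 132 (869,64) [(873,0),(877,64)],.kids 196 (873,64) [(20224,3)],.kids 66 (17408,64) [(765,1)],.kids 131 (896,67) [(883,0)],.kids 259 (1536,193) [(885,0)],.kids 67 (2816,3) [(887,0)],.kids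 132 (17152,3) [(859,1),(889,64)],.kids 133 (859,2) [(645,64)],.kids 67 (1920,67) [(23584,0)],.kids 131 (2816,66) [(895,0)],.kids 260 (23680,256) [(897,0)],.kids 131 (661,128) [(899,1),(1658,3)],.kids 131 (857,0) [(859,0),(57088,66)],.kids 197 (867,2) [(671,1),(879,66),(881,2),(891,1),(893,0),(901,1),(903,2)],.kids 454 (627,387) [(673,129),(717,129),(843,0),(855,195),(905,129)],.kids 131 (17408,64) [(38784,3)],.kids 132 (384,65) [(909,0)],.kids 4 (1536,1) [(911,0)],.kids 65 (2816,1) [(913,0)],.kids 69 (65088,64) [(915,1),(64576,1)],.kids 68 (6144,3) [(917,0)],.kids 131 (1920,67) [(919,0)],.kids 192 (1920,128) [(6528,0)],.kids 259 (625,130) [(907,0),(346,130),(921,192),(923,131)],.kids 129 (2048,64) [(45248,1)],.kids 259 (29312,192) [(927,2)],.kids 131 (384,64) [(11280,0)],.kids 66 (931,2) [(4608,64),(9088,0)],.kids 67 (1536,64) [(3264,2)],.kids 195 (384,128) [(935,0)],.kids 132 (9600,64) [(9984,64),(937,1)],.kids 132 (933,64) [(939,2),(13312,64),(13440,64)],.kids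 259 (2816,2) [(1010,64)],.kids 131 (5504,2) [(943,0)],.kids 259 (29312,192) [(945,1)],.kids 68 (1536,1) [(9600,0)],.kids 4 (3712,0) [(949,0)],.kids 66 (4864,1) [(9088,0)],.kids 2 (4736,2) [(953,0)],.kids 68 (6224,0) [(60,2),(951,3),(955,0)],.kids 131 (384,64) [(943,0)],.kids 259 (29312,192) [(959,1)],.kids 3 (29312,0) [(19456,3)],.kids 4 (1536,1) [(963,0)],.kids 65 (0,64) [(965,0)],.kids 129 (256,65) [(967,0)],.kids 66 (4992,1) [(8448,0),(969,0)],.kids 68 (9600,2) [(961,2),(971,0)],.kids 259 (29312,192) [(795,1)],.kids 66 (9600,0) [(975,0),(9984,0)],.kids 70 (947,2) [(957,0),(973,0),(977,2)],.kids 66 (2816,2) [(24320,64)],.kids 68 (6144,3) [(981,0)],.kids 131 (2048,66) [(983,0)],.kids 259 (29312,192) [(985,0)],.kids 133 (929,66) [(941,0),(979,64),(987,66)],.kids 193 (2048,128) [(17152,0)],.kids 320 (31744,256) [(991,0)],.kids 65 (1920,1) [(5296,0)],.kids 131 (625,2) [(989,0),(993,2),(995,130)],.kids 194 (384,192) [(52224,2)],.kids 324 (20160,256)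 [(57472,2)],.kids 323 (999,64) [(321,128),(46720,2),(1001,0)],.kids 260 (20160,192) [(895,0)],.kids 259 (896,66) [(1005,0)],.kids 130 (5376,66) [(20576,0)],.kids 258 (5632,2) [(1009,0)],.kids 67 (1152,3) [(1011,64)],.kids 131 (1007,65) [(1013,0),(58240,3)],.kids 260 (61888,64) [(1003,1),(1015,0)],.kids 194 (0,192) [(6720,0)],.kids 261 (621,258) [(997,0),(1017,66),(1019,66)],.kids 66 (6144,1) [(1416,64)]]
theorem chk7 : checkFrom E7 t7 j7 0 = true := by decide +kernel
end Vale.Agent.P062
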