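import Vale.Agent.P062.Transport
import Vale.Agent.P062.Cert.D0
import Vale.Agent.P062.Cert.D1
import Vale.Agent.P062.Cert.D2
import Vale.Agent.P062.Cert.D3
import Vale.Agent.P062.Cert.D4
import Vale.Agent.P062.Cert.D5
import Vale.Agent.P062.Cert.D6
import Vale.Agent.P062.Cert.D7
import Vale.Agent.P062.Cert.D8
namespace Vale.Agent.P062
def E8 : Tree := .node (.node (.node (.node (.node (.node (.node t0 t1) t2) t3) t4) t5) t6) t7
set_option maxRecDepth 1000000 in
def j8 : List Just := [.kids 65 (11008,0) [(2046,0)],.kids 257 (1792,64) [(22240,0)],.kids 131 (109056,3) [(3,67),(8896,0)],.kids 130 (17056,0) [(120064,0),(50048,0)],.kids 67 (11008,2) [(7,0)],.kids 65 (3840,1) [(43264,0)],.kids 65 (5632,1) [(11,64)],.kids 67 (12288,2) [(13,0)],.kids 66 (11008,1) [(15,0)],.kids 132 (1,3) [(74,1),(5,0),(9,1),(17,2),(11968,0)],.kids 196 (25056,194) [(19,0),(7744,2)],.kids 390 (1246,386) [(482,130),(1850,0),(2042,128),(21,192)],.kids 257 (3840,64) [(12288,1)],.kids 131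 (34816,64) [(25,2)],.kids 132 (768,65) [(27,0)],.kids 68 (51520,1) [(15872,1),(22496,1),(29,0)],.kids 65 (5632,1) [(31,0)],.kids 67 (12288,2) [(33,0)],.kids 259 (192,0) [(278,66),(35,1)],.kids 195 (114944,2) [(37,128),(51136,2),(57600,131)],.kids 454 (178,128) [(960,131),(8544,131),(234,259),(1234,129),(23,3),(39,131)],.kids 194 (4096,2) [(37824,128)],.kids 195 (4096,3) [(2452,128)],.kids 68 (9472,0) [(28576,1)],.kids 193 (4096,1) [(47,128)],.kids 130 (43,1) [(45,0),(49,2),(47104,129)],.kids 197 (3840,4) [(51,0)],.kids 260 (46592,3) [(58368,3),(53,64)],.kids 66 (58624,0) [(54528,1)],.kids 129 (34816,128) [(3588,0)],.kids 257 (0,192) [(62208,1)],.kids 258 (10752,66) [(61,0)],.kids 130 (59,0) [(63,0),(9632,0)],.kids 196 (22880,65) [(65,0)],.kids 194 (58624,128) [(67,0)],.kids 257 (4848,192) [(4784,0),(5736,128),(4816,0)],.kids 129 (6400,0) [(34304,0),(45824,64)],.kids 193 (37248,0) [(70912,192)],.kids 3 (38912,2) [(58624,0)],.kids 65 (768,65) [(77,0)],.kids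 67 (0,65) [(79,0)],.kids 258 (5736,129) [(73,1),(75,2),(81,192)],.kids 192 (40320,192) [(2816,0)],.kids 67 (12288,2) [(34816,64)],.kids 131 (34816,129) [(87,0)],.kids 65 (5632,1) [(89,0)],.kids 130 (123392,1) [(6400,1),(91,64)],.kids 194 (34816,192) [(37248,1)],.kids 258 (4784,1) [(73,1),(85,1),(93,0),(95,1)],.kids 194 (48192,193) [(71,1),(83,0),(97,0)],.kids 65 (63488,0) [(47616,0)],.kids 65 (63488,0) [(37888,1)],.kids 69 (6080,0) [(101,65),(103,65)],.kids 322 (57,257) [(69,129),(99,0),(105,193),(2444,257)],.kids 257 (5632,0) [(3840,65)],.kids 258 (3328,1) [(109,0)],.kids 192 (4096,0) [(111,128)],.kids 321 (12544,65) [(113,0)],.kids 257 (57216,0) [(558,64),(115,0)],.kids 193 (3840,1) [(65344,0)],.kids 258 (3328,1) [(119,64)],.kids 65 (36864,65) [(58624,0)],.kids 133 (38912,66) [(123,0)],.kids 130 (64000,64) [(121,2),(71424,0)],.kids 130 (2524,1) [(2468,0),(2444,65),(2500,2)],.kids 196 (4864,3) [(117,3),(127,1),(125440,3),(129,0)],.kids 68 (0,64) [(65408,1)],.kids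 65 (9728,64) [(78848,1)],.kids 66 (0,65) [(136,0)],.kids 130 (512,66) [(137,0)],.kids 129 (768,129) [(698,0)],.kids 130 (0,129) [(141,0)],.kids 194 (512,130) [(143,0)],.kids 131 (135,2) [(139,64),(145,0)],.kids 134 (133,67) [(147,0),(6080,65)],.kids 324 (48704,129) [(55,128),(107,0),(131,192),(149,128)],.kids 65 (99584,0) [(43264,0)],.kids 65 (5632,1) [(153,64)],.kids 321 (0,256) [(155,1)],.kids 68 (12288,3) [(157,0)],.kids 257 (58624,192) [(159,0)],.kids 260 (3840,67) [(161,0)],.kids 258 (4096,66) [(163,0)],.kids 259 (4864,66) [(46592,2),(58368,2),(165,0)],.kids 195 (57600,131) [(167,128),(53696,66),(25280,2)],.kids 257 (0,192) [(112128,1)],.kids 129 (9728,128) [(171,0)],.kids 66 (99840,2) [(173,0)],.kids 3 (99584,2) [(175,0)],.kids 128 (39936,0) [(2048,128)],.kids 1 (99584,0) [(179,0)],.kids 258 (177,0) [(13696,0),(181,2)],.kids 193 (2304,1) [(1792,0)],.kids 1 (9728,0) [(185,1)],.kids 257 (0,192) [(73728,1)],.kids 130 (2048,130) [(189,0)],.kids 65 (99840,1)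 [(12288,0)],.kids 2 (40960,2) [(193,0)],.kids 257 (0,192) [(195,1)],.kids 260 (768,193) [(197,0)],.kids 65 (2304,1) [(199,0)],.kids 132 (3072,129) [(201,0)],.kids 129 (9728,128) [(203,0)],.kids 258 (187,128) [(191,0),(13696,0),(205,0)],.kids 66 (12288,1) [(256,64)],.kids 64 (5632,0) [(209,0)],.kids 132 (3072,129) [(211,0)],.kids 65 (2304,1) [(213,0)],.kids 257 (0,192) [(215,0)],.kids 258 (185,129) [(217,0)],.kids 129 (9728,128) [(219,0)],.kids 67 (15904,1) [(183,0),(207,0),(221,0)],.kids 194 (18176,128) [(16896,128),(15104,128),(223,1)],.kids 1 (9728,0) [(2048,1)],.kids 129 (0,64) [(227,0)],.kids 68 (15872,1) [(229,0)],.kids 66 (15104,0) [(15872,2),(19200,1)],.kids 197 (18432,129) [(225,0),(231,130),(1824,128),(26880,128),(233,128)],.kids 192 (85760,192) [(4096,0)],.kids 257 (3840,65) [(237,0)],.kids 258 (3328,1) [(239,0)],.kids 1 (9728,0) [(241,0)],.kids 321 (11776,1) [(243,128),(13568,0)],.kids 257 (0,192) [(245,0)],.kids 194 (18176,128) [(15104,128),(247,1)],.kids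 67 (12288,2) [(3440,0)],.kids 130 (251,64) [(6400,1),(123392,1)],.kids 194 (9728,128) [(3840,1)],.kids 193 (255,0) [(124928,0)],.kids 322 (40448,2) [(253,0),(257,193)],.kids 129 (12288,65) [(7808,0)],.kids 130 (12544,129) [(261,0)],.kids 385 (51712,129) [(266,192),(263,0)],.kids 192 (38912,192) [(93440,0)],.kids 195 (39424,192) [(265,2),(267,2)],.kids 68 (0,64) [(19968,0)],.kids 323 (130176,256) [(259,65),(269,0),(271,194)],.kids 69 (19200,1) [(1536,65),(16896,0)],.kids 259 (27392,193) [(249,64),(273,0),(27648,193),(275,193)],.kids 258 (928,0) [(48192,257)],.kids 130 (15104,64) [(18176,64),(279,1)],.kids 257 (48192,256) [(1120,0)],.kids 132 (15872,65) [(283,0)],.kids 70 (768,67) [(280,0)],.kids 134 (256,66) [(287,0)],.kids 69 (15872,2) [(328,2),(289,0),(18176,0)],.kids 193 (10752,1) [(48192,192)],.kids 2 (9472,2) [(293,0)],.kids 70 (3072,3) [(295,0)],.kids 6 (7424,2) [(297,0)],.kids 129 (0,64) [(299,0)],.kids 69 (8704,65) [(301,0)],.kids 69 (16896,0) [(328,2),(303,1)],.kids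 131 (281,0) [(285,2),(291,65),(305,65),(27648,65),(736,65)],.kids 129 (9728,128) [(1288,1)],.kids 322 (309,0) [(48192,321)],.kids 257 (40576,192) [(9232,0)],.kids 193 (40320,192) [(313,0)],.kids 257 (40576,192) [(2304,0)],.kids 129 (0,64) [(317,1)],.kids 194 (40320,193) [(319,0)],.kids 321 (5016,0) [(315,129),(321,128)],.kids 196 (16896,130) [(311,3),(250,128),(323,3)],.kids 193 (40320,192) [(4096,0)],.kids 256 (3584,0) [(327,64)],.kids 259 (21184,64) [(329,66),(58368,2)],.kids 321 (329,128) [(34304,0)],.kids 195 (57600,131) [(331,128),(333,66),(59904,2)],.kids 66 (37888,2) [(202,0)],.kids 256 (17792,256) [(11008,0)],.kids 192 (37888,128) [(339,0)],.kids 323 (337,256) [(52480,2),(341,130)],.kids 388 (42752,386) [(780,67),(343,0)],.kids 259 (44544,258) [(335,0),(345,64)],.kids 193 (1792,0) [(48192,192)],.kids 129 (512,65) [(349,0)],.kids 69 (768,66) [(351,0)],.kids 65 (9728,0) [(353,1)],.kids 1 (9472,1) [(355,0)],.kids 134 (256,66) [(357,0)],.kids 69 (15872,2)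 [(359,0),(15104,0)],.kids 261 (89600,4) [(6080,192)],.kids 69 (768,66) [(363,0)],.kids 133 (256,65) [(365,0)],.kids 68 (3072,1) [(367,0)],.kids 4 (7424,0) [(369,0)],.kids 66 (16896,0) [(371,2)],.kids 325 (27392,259) [(325,128),(347,2),(361,259),(373,258)],.kids 194 (69120,2) [(42752,192)],.kids 66 (48640,65) [(16896,0),(1536,65)],.kids 3 (1792,3) [(6080,0)],.kids 195 (2816,3) [(379,128),(381,128)],.kids 66 (11008,1) [(7800,0)],.kids 196 (35072,128) [(385,2)],.kids 193 (0,128) [(2304,1)],.kids 65 (9728,64) [(389,0)],.kids 132 (15872,65) [(391,0)],.kids 130 (16896,64) [(30016,2)],.kids 131 (379,64) [(387,1),(393,2),(395,0),(81280,65)],.kids 3 (10752,2) [(64384,0)],.kids 193 (2816,1) [(393,64),(399,128)],.kids 197 (11776,4) [(383,0),(397,64),(401,2)],.kids 129 (123392,0) [(6400,0),(114176,64)],.kids 131 (13056,3) [(1838,64),(34304,2),(32000,2)],.kids 129 (57472,64) [(46592,64),(32000,0)],.kids 129 (57472,64) [(45824,64),(13056,1)],.kids 196 (403,0) [(405,3),(407,1),(409,3),(411,3)],.kids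 321 (48192,320) [(5584,1)],.kids 193 (34816,192) [(13440,0)],.kids 196 (37888,193) [(417,0)],.kids 194 (9632,64) [(46464,64),(419,0)],.kids 258 (15936,193) [(16896,192),(421,1)],.kids 129 (15936,64) [(279,0)],.kids 193 (3840,0) [(40576,128)],.kids 129 (40320,128) [(427,0)],.kids 256 (12288,0) [(429,64)],.kids 194 (40320,193) [(1568,0)],.kids 257 (102272,0) [(431,65),(433,64)],.kids 193 (0,128) [(435,0)],.kids 129 (15936,64) [(437,0)],.kids 65 (2304,1) [(3172,0)],.kids 257 (0,192) [(441,0)],.kids 129 (9728,128) [(443,0)],.kids 132 (3072,129) [(445,0)],.kids 321 (10752,129) [(2560,0)],.kids 129 (9728,128) [(449,1)],.kids 258 (52864,2) [(447,0),(451,0)],.kids 194 (15936,129) [(16896,128),(453,1)],.kids 259 (415,66) [(423,0),(425,129),(439,129),(455,64)],.kids 65 (5632,0) [(57472,0)],.kids 64 (5376,64) [(459,0)],.kids 65 (12288,1) [(57472,0)],.kids 66 (12544,65) [(463,0)],.kids 131 (34304,2) [(461,2),(465,2),(4544,0)],.kids 323 (2048,195) [(467,0)],.kids 260 (377,258)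 [(413,0),(457,64),(469,65)],.kids 67 (15872,1) [(229,0)],.kids 128 (5376,128) [(23648,0)],.kids 195 (3072,192) [(475,2)],.kids 196 (58624,192) [(3840,3)],.kids 259 (4096,66) [(479,0)],.kids 3 (3072,0) [(481,0)],.kids 387 (55296,194) [(477,0),(483,192)],.kids 323 (768,256) [(485,0)],.kids 259 (19200,192) [(19968,192),(487,1)],.kids 195 (4096,130) [(4044,0)],.kids 259 (3072,256) [(491,0)],.kids 322 (16896,256) [(493,2)],.kids 259 (64384,256) [(491,0)],.kids 64 (69120,0) [(40960,0)],.kids 259 (768,192) [(499,2)],.kids 131 (3072,128) [(501,0)],.kids 196 (9728,128) [(503,1)],.kids 325 (6080,256) [(495,0),(497,2),(505,130)],.kids 131 (4096,66) [(1382,0)],.kids 195 (3072,192) [(509,0)],.kids 258 (16896,192) [(511,2)],.kids 195 (64384,192) [(509,0)],.kids 261 (6080,192) [(513,0),(515,2),(505,66)],.kids 67 (9728,0) [(106496,1)],.kids 1 (69120,1) [(519,0)],.kids 194 (42752,192) [(521,1)],.kids 261 (473,193) [(489,1),(507,128),(517,192),(523,192)],.kids 192 (40320,192)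 [(4096,0)],.kids 1 (9728,0) [(527,0)],.kids 1 (10752,0) [(69120,1)],.kids 194 (34816,192) [(531,1)],.kids 257 (102272,0) [(529,64),(533,64)],.kids 193 (0,128) [(535,0)],.kids 130 (18176,64) [(15104,64),(537,1)],.kids 133 (18432,65) [(539,0),(231,66),(1824,64),(233,64)],.kids 257 (2304,129) [(2816,0)],.kids 321 (34816,320) [(5584,1)],.kids 130 (69120,130) [(545,0)],.kids 322 (42752,320) [(543,1),(547,0)],.kids 4 (7424,0) [(377,2)],.kids 65 (9728,0) [(551,1)],.kids 1 (9472,1) [(553,0)],.kids 66 (0,65) [(555,0)],.kids 130 (512,66) [(557,0)],.kids 129 (2304,1) [(1792,0)],.kids 194 (17792,192) [(561,1)],.kids 192 (10752,0) [(563,0)],.kids 1 (9728,0) [(565,0)],.kids 129 (0,64) [(567,1)],.kids 67 (9984,2) [(559,0),(569,2),(16896,1)],.kids 71 (15872,4) [(571,0)],.kids 321 (48192,320) [(5016,0)],.kids 196 (15872,129) [(575,0)],.kids 196 (736,130) [(549,3),(573,128),(577,3)],.kids 68 (15872,2) [(9216,64),(18176,0)],.kids 257 (12288,1) [(38912,192)],.kids 193 (34816,192)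 [(583,1)],.kids 194 (2304,2) [(585,0)],.kids 130 (0,65) [(587,0)],.kids 68 (18176,0) [(589,0),(296,0)],.kids 0 (2048,0) [(9472,0)],.kids 68 (3072,1) [(593,0)],.kids 129 (0,64) [(595,1)],.kids 5 (7424,1) [(597,0)],.kids 68 (9216,64) [(599,1),(15872,2)],.kids 133 (581,64) [(517,64),(507,0),(591,64),(601,64)],.kids 68 (15872,2) [(10496,0),(15104,0)],.kids 133 (605,64) [(517,64),(507,0),(523,64)],.kids 257 (12288,1) [(4760,64)],.kids 260 (38912,193) [(609,0)],.kids 129 (2304,1) [(611,0)],.kids 131 (10752,3) [(96512,64)],.kids 4 (69120,4) [(615,0)],.kids 195 (34816,194) [(617,0)],.kids 196 (42752,194) [(613,3),(619,0)],.kids 3 (3072,0) [(377,1)],.kids 65 (0,64) [(623,1)],.kids 129 (512,65) [(625,0)],.kids 65 (9728,0) [(623,1)],.kids 1 (9472,1) [(629,0)],.kids 1 (38912,0) [(565,0)],.kids 129 (0,64) [(633,1)],.kids 1 (9728,0) [(635,0)],.kids 66 (16896,0) [(627,0),(631,0),(637,1)],.kids 131 (780,3) [(6080,128)],.kids 258 (34816,257) [(5456,0)],.kids 129 (9728,64)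 [(643,0)],.kids 68 (9472,0) [(1536,64)],.kids 66 (1224,64) [(645,1),(647,66)],.kids 324 (42752,322) [(641,0),(649,64)],.kids 129 (2304,1) [(344,0)],.kids 322 (42752,320) [(653,129),(547,0)],.kids 195 (275,129) [(621,128),(639,128),(651,0),(305,129),(655,2)],.kids 195 (275,129) [(281,64),(639,128),(651,0),(655,2)],.kids 326 (235,131) [(277,66),(307,194),(375,0),(471,2),(525,68),(541,195),(579,129),(603,196),(607,196),(657,130),(659,130)],.kids 196 (123392,3) [(6400,3),(1472,64)],.kids 193 (3840,129) [(123392,0)],.kids 193 (3840,129) [(6400,0)],.kids 132 (3840,68) [(1472,0)],.kids 327 (661,0) [(663,195),(665,198),(667,198),(669,259)],.kids 196 (57600,132) [(53568,129),(41728,0),(59904,3)],.kids 195 (57600,131) [(25152,128),(448,64),(25280,2)],.kids 131 (768,64) [(11008,2)],.kids 67 (37888,64) [(677,0)],.kids 66 (12288,1) [(679,0)],.kids 64 (5632,0) [(681,0)],.kids 195 (38912,128) [(683,0)],.kids 258 (3840,65) [(685,0)],.kids 130 (21056,0) [(42752,128),(687,2)],.kids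 259 (1728,1) [(278,66),(689,0)],.kids 196 (57600,132) [(691,129),(41728,0),(59904,3)],.kids 193 (0,128) [(44608,1)],.kids 133 (695,1) [(15872,66),(18176,64)],.kids 196 (3840,3) [(13184,128)],.kids 257 (66304,0) [(64512,64)],.kids 193 (0,128) [(701,1)],.kids 65 (5632,1) [(703,64)],.kids 67 (1792,3) [(58624,64)],.kids 129 (768,129) [(707,0)],.kids 130 (0,129) [(709,0)],.kids 194 (512,130) [(711,0)],.kids 67 (5632,3) [(713,64)],.kids 260 (699,65) [(705,2),(58368,3),(715,0)],.kids 67 (37888,64) [(11008,2)],.kids 131 (3072,128) [(719,0)],.kids 66 (12288,1) [(721,0)],.kids 258 (3840,65) [(723,0)],.kids 257 (104448,0) [(725,0)],.kids 129 (9728,128) [(727,1)],.kids 196 (16896,130) [(250,128),(717,1),(729,3)],.kids 199 (6080,130) [(44544,132),(697,67),(731,0)],.kids 197 (57600,133) [(733,128),(41728,1),(25280,4)],.kids 519 (50240,323) [(1234,194),(151,259),(169,196),(671,0),(3520,195),(673,195),(675,196),(693,195),(735,194)],.kids 196 (15872,129) [(77440,0)],.kids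 1 (99584,0) [(40960,1)],.kids 131 (3072,128) [(741,1)],.kids 193 (3840,1) [(46336,0)],.kids 258 (3328,1) [(745,64)],.kids 257 (5376,0) [(747,64)],.kids 67 (3072,64) [(749,2)],.kids 130 (743,64) [(23712,0),(751,128),(108416,66)],.kids 323 (768,256) [(753,0)],.kids 260 (19968,192) [(19200,192),(755,1)],.kids 65 (34816,64) [(25376,0)],.kids 68 (12288,3) [(759,0)],.kids 66 (5632,2) [(761,0)],.kids 132 (54528,129) [(763,0),(25696,0)],.kids 259 (73088,65) [(765,0)],.kids 131 (11008,2) [(767,0)],.kids 3 (99840,2) [(100096,0)],.kids 68 (27040,3) [(26880,0),(8624,0),(771,2)],.kids 67 (96512,0) [(91904,3)],.kids 66 (1792,2) [(640,0)],.kids 131 (12288,3) [(777,64)],.kids 68 (771,2) [(24064,0),(775,64),(779,1)],.kids 3 (69120,3) [(39424,0)],.kids 194 (2304,66) [(391,0)],.kids 130 (15104,64) [(18176,64),(785,1)],.kids 131 (2304,3) [(96512,64)],.kids 132 (26880,64) [(24064,64),(783,64),(787,0),(789,64)],.kids 131 (608,67) [(773,64),(781,64),(791,0)],.kids 321 (93440,0)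 [(23840,65),(2088,65)],.kids 133 (769,66) [(793,0),(795,67),(91264,68)],.kids 68 (9728,0) [(768,65)],.kids 3 (3072,0) [(799,2)],.kids 134 (256,66) [(801,0)],.kids 69 (512,65) [(803,0)],.kids 68 (14592,0) [(4408,1),(805,0)],.kids 68 (512,64) [(106496,1)],.kids 67 (768,64) [(809,0)],.kids 132 (256,64) [(811,1)],.kids 259 (768,192) [(116480,2)],.kids 130 (46208,1) [(813,128),(815,0)],.kids 259 (22496,192) [(807,192),(817,64),(3736,0),(15872,192)],.kids 65 (5632,1) [(19328,64)],.kids 66 (3840,66) [(2368,0)],.kids 130 (12288,66) [(823,0)],.kids 131 (12544,130) [(825,0)],.kids 194 (821,128) [(263,1),(827,0)],.kids 386 (8352,193) [(829,0),(93440,65)],.kids 261 (739,66) [(757,2),(797,0),(819,3),(831,2)],.kids 129 (47360,64) [(84480,0)],.kids 68 (12288,3) [(835,0)],.kids 129 (9728,128) [(837,1)],.kids 260 (768,193) [(839,0)],.kids 68 (11008,3) [(841,0)],.kids 257 (0,192) [(843,0)],.kids 132 (3072,129) [(845,0)],.kids 196 (19968,128) [(5088,129),(19200,128),(847,0)],.kids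 259 (65152,258) [(849,66),(97408,0),(60992,192)],.kids 321 (123392,0) [(4864,128),(122368,65)],.kids 67 (768,64) [(89600,2)],.kids 132 (256,64) [(855,1)],.kids 3 (3072,0) [(857,0)],.kids 64 (5632,0) [(859,0)],.kids 69 (130176,64) [(861,2),(31168,0)],.kids 68 (12288,3) [(863,0)],.kids 131 (123392,2) [(6400,2),(865,64)],.kids 131 (58624,128) [(11520,2)],.kids 132 (3072,129) [(869,0)],.kids 193 (391,64) [(871,0)],.kids 131 (768,64) [(5632,2)],.kids 67 (875,0) [(65408,0)],.kids 197 (873,1) [(877,131),(96896,192)],.kids 70 (38144,66) [(4896,3),(139,0)],.kids 195 (2816,3) [(881,128),(381,128)],.kids 257 (12288,1) [(46592,0)],.kids 197 (11776,4) [(879,1),(883,0),(885,131)],.kids 321 (122368,65) [(58368,64),(34304,0)],.kids 196 (853,67) [(867,1),(887,0),(4800,67),(889,67)],.kids 321 (123392,0) [(13312,1),(4864,128)],.kids 68 (12288,3) [(12928,64)],.kids 66 (5632,2) [(895,0)],.kids 129 (97792,128) [(897,0)],.kids 192 (47360,128) [(899,0)],.kids 2 (37120,2) [(47616,0)],.kids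 64 (47360,0) [(903,0)],.kids 132 (901,0) [(42240,0),(905,128)],.kids 67 (34816,64) [(38912,0)],.kids 64 (5632,0) [(909,64)],.kids 68 (12288,3) [(11072,64)],.kids 130 (37120,130) [(913,0)],.kids 129 (97792,128) [(5712,0)],.kids 192 (36864,192) [(917,0)],.kids 260 (3840,67) [(919,0)],.kids 65 (34816,64) [(921,0)],.kids 258 (4096,66) [(923,0)],.kids 66 (5632,2) [(925,0)],.kids 132 (911,2) [(915,0),(42240,0),(927,0)],.kids 129 (0,64) [(3328,1)],.kids 1 (9728,0) [(931,0)],.kids 258 (4096,66) [(933,0)],.kids 65 (34816,64) [(935,0)],.kids 68 (12288,3) [(937,0)],.kids 132 (909,66) [(939,0)],.kids 66 (5632,2) [(941,0)],.kids 193 (2524,64) [(907,0),(929,0),(943,0)],.kids 131 (123392,2) [(34304,2),(6400,2),(945,64)],.kids 64 (5632,0) [(37120,64)],.kids 66 (12288,1) [(949,0)],.kids 257 (4864,64) [(951,0)],.kids 129 (58368,64) [(4864,128),(6400,0)],.kids 323 (893,66) [(947,0),(953,130),(42688,2),(53696,66),(955,2)],.kids 132 (40128,0) [(608,68)],.kids 130 (6400,1) [(123392,1),(959,64)],.kids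 68 (608,4) [(40384,0)],.kids 258 (4864,65) [(963,0)],.kids 385 (3840,193) [(2876,0)],.kids 386 (3328,129) [(967,0)],.kids 321 (4864,128) [(2900,128),(969,0),(123392,0)],.kids 67 (37888,64) [(608,3)],.kids 128 (5376,128) [(973,0)],.kids 385 (4096,192) [(975,0)],.kids 384 (3584,128) [(977,0)],.kids 66 (12288,1) [(979,0)],.kids 321 (32256,65) [(981,0)],.kids 321 (58368,64) [(983,64),(34304,0)],.kids 194 (961,0) [(965,128),(971,65),(985,65),(4800,65),(39744,65)],.kids 66 (5632,2) [(3404,64)],.kids 133 (608,69) [(989,0)],.kids 68 (34816,0) [(69376,3)],.kids 67 (69120,3) [(993,0)],.kids 66 (12288,1) [(995,64)],.kids 68 (69376,3) [(4976,0)],.kids 67 (69120,3) [(999,0)],.kids 68 (12288,3) [(130176,64)],.kids 69 (997,2) [(1001,66),(1003,0)],.kids 259 (34304,130) [(991,192),(3912,2),(1005,192)],.kids 67 (3072,0) [(69120,3)],.kids 4 (7424,0) [(1009,1)],.kids 196 (53952,1) [(1011,129),(19200,128)],.kids 69 (1011,2) [(16896,0)],.kids 195 (65152,194) [(1013,2),(1015,129),(60992,128)],.kids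 65 (2048,65) [(11008,0)],.kids 129 (10752,128) [(1019,0)],.kids 4 (58624,0) [(66304,4)]]
theorem chk8 : checkFrom E8 t8 j8 0 = true := by decide +kernel
end Vale.Agent.P062
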